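import Vale.Agent.P167.H592.S.Tips

/-!
# P167, general `q`, START: rows of the frame near each other are near a mark; windows of the marks

`frows_okg`: the rows of the frame are macroscopic. `near_hole`: squares of different rows which are
near each other are near a mark. `frame_holeW`: the windows of all marks, at all radii.
-/

namespace Vale.Agent.P167.Enl

open Finset
open Vale.Agent.P167.Top
open Vale.Agent.P167.FK (Bq Good)
open Vale.Agent.P167.E6 (IsPolygon Encloses dir face)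
open Vale.Agent.P167.H825 (dv enl pdir ptau Marks FlowIn bsite rnd)
open Vale.Agent.P167.H825.Q (Row Bc frow stΦ stτ stτ_or PT PT_S frmP RowsP)
open Vale.Agent.P167.H680.T (rowC uI frows)
open Vale.Agent.P167.H662 (hsite)
open Vale.Agent.P167.H199 (Gap)
open Vale.Agent.P167.XDL (bS)
open Vale.Agent.P167.H398.Q (hB Frz bcol)
open Vale.Agent.P167.H945.Q (Plain ctr)
open Vale.Agent.P167.H871.Q (HoleW Wn)

variable {l : ℕ} {p : ZMod l → ℤ × ℤ} {n : ℕ} {S₀ : Finset (ℤ × ℤ)} {Q : Marks} {bc : Bc}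
  {d : ℕ} {θ β : ℝ}

/-! ### squares of different sides -/

/-- The centre of the square outside of a step, doubled scale. -/
theorem op_dbl (z : ℤ × ℤ) (r : Fin 4) (σ : ℤ) :
    (2 : ℤ) • oz z r σ + (1, 1) = vz ((2 : ℤ) • z) r (2 * σ + 1) + dir (r - 1) := by
  obtain ⟨h0, h1, h2, h3⟩ := oz_eq z σ
  obtain ⟨k0, k1, k2, k3⟩ := vz_eq ((2 : ℤ) • z) (2 * σ + 1)
  rcases fin4_cases r with rfl | rfl | rfl | rfl
  · rw [h0, k0, m01, dir3]; ext <;> simp <;> ring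
  · rw [h1, k1, m11, dir0]; ext <;> simp <;> ring
  · rw [h2, k2, m21, dir1]; ext <;> simp <;> ring
  · rw [h3, k3, m31, dir2]; ext <;> simp <;> ring

theorem nm_two (v : ℤ × ℤ) : nm ((2 : ℤ) • v) = 2 * nm v := nm_smul_nat 2 v

/-- **Squares of different sides near each other are near the ends of the sides.** -/
theorem op_sides (hp : IsPolygon p) {i i' : ℕ} (hi : i < l) (hi' : i' < l) (hne : i ≠ i')
    {σ τ ρ : ℤ} (hτ : 0 ≤ τ) (hτ' : τ < n) (h : nm (op p n i σ - op p n i' τ) ≤ ρ) :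
    σ ≤ ρ ∨ n - σ - 1 ≤ ρ := by
  by_contra hcon
  push Not at hcon
  obtain ⟨c1, c2⟩ := hcon
  have hρ := (nm_nonneg _).trans h
  have e1 := op_dbl ((n : ℤ) • p (i : ℕ)) (pdir p i) σ
  have e2 := op_dbl ((n : ℤ) • p (i' : ℕ)) (pdir p i') τ
  rw [smul_smul] at e1 e2
  have h1 := sides_dist (n := 2 * n) hp hi hi' hne (j := 2 * σ + 1) (j' := 2 * τ + 1)
    (κ := 2 * ρ + 3) (by omega) (by push_cast; omega) (by omega) (by push_cast; omega)
    (by push_cast; omega)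
  have h2 : nm ((2 : ℤ) • op p n i σ + (1, 1) - ((2 : ℤ) • op p n i' τ + (1, 1))) ≤ 2 * ρ := by
    rw [add_sub_add_right_eq_sub, ← smul_sub, nm_two]
    omega
  change nm ((2 : ℤ) • oz _ _ σ + (1, 1) - ((2 : ℤ) • oz _ _ τ + (1, 1))) ≤ 2 * ρ at h2
  rw [e1, e2] at h2
  push_cast at h1
  change 2 * ρ + 3 ≤ nm (vz ((2 * (n : ℤ)) • p (i : ℕ)) (pdir p i) (2 * σ + 1) -
    vz ((2 * (n : ℤ)) • p (i' : ℕ)) (pdir p i') (2 * τ + 1)) at h1
  generalize vz ((2 * (n : ℤ)) • p (i : ℕ)) (pdir p i) (2 * σ + 1) = a at h1 h2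
  generalize vz ((2 * (n : ℤ)) • p (i' : ℕ)) (pdir p i') (2 * τ + 1) = b at h1 h2
  have h3 := nm_tri a (a + dir (pdir p i - 1)) b
  have h4 := nm_tri (a + dir (pdir p i - 1)) (b + dir (pdir p i' - 1)) b
  have d1 := nm_dir 1 (pdir p i - 1)
  have d2 := nm_dir 1 (pdir p i' - 1)
  rw [one_smul, abs_one] at d1 d2
  rw [nm_sub_comm a (a + _), add_sub_cancel_left, d1] at h3
  rw [add_sub_cancel_left (a := b), d2] at h4
  omega

/-- The corner before a side is a mark. -/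
theorem mark_zero {i : ℕ} (hi : i < l) (hQ : Q.Ok) :
    hsite p Q n ((⟨i, hi⟩, 0) : Fin l × Fin (Q.m + 1)) = vp p n i 0 := by
  show vp p n i (⌊Q.θ i 0 * n⌋₊ : ℤ) = _
  rw [fl_zero hQ, Nat.cast_zero]

theorem op_vp_near (i : ℕ) {σ τ : ℤ} :
    nm (op p n i σ - vp p n i τ) ≤ |σ - τ| + 1 := by
  have h1 := nm_tri (op p n i σ) (vp p n i σ) (vp p n i τ)
  have h2 := op_near (p := p) (n := n) i σ
  rw [vp_same] at h1
  omega

/-- The distance to the end of the side. -/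
theorem op_near2 (i : ℕ) {σ : ℤ} (h : σ < n) : nm (op p n i σ - vp p n i n) ≤ n - σ := by
  unfold op vp
  obtain ⟨h0, h1, h2, h3⟩ := oz_eq ((n : ℤ) • p (i : ℕ)) σ
  obtain ⟨k0, k1, k2, k3⟩ := vz_eq ((n : ℤ) • p (i : ℕ)) n
  unfold nm
  rcases fin4_cases (pdir p i) with hr | hr | hr | hr <;> rw [hr]
  · rw [h0, k0, max_le_iff, abs_le, abs_le]; simp only [Prod.fst_sub, Prod.snd_sub]; omega
  · rw [h1, k1, max_le_iff, abs_le, abs_le]; simp only [Prod.fst_sub, Prod.snd_sub]; omega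
  · rw [h2, k2, max_le_iff, abs_le, abs_le]; simp only [Prod.fst_sub, Prod.snd_sub]; omega
  · rw [h3, k3, max_le_iff, abs_le, abs_le]; simp only [Prod.fst_sub, Prod.snd_sub]; omega

/-- The distance of two squares of a side. -/
theorem op_same (i : ℕ) (σ τ : ℤ) : nm (op p n i σ - op p n i τ) = |σ - τ| := by
  unfold op oz
  rw [show face (vz ((n : ℤ) • p (i : ℕ)) (pdir p i) σ) (pdir p i - 1) -
      face (vz ((n : ℤ) • p (i : ℕ)) (pdir p i) τ) (pdir p i - 1) =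
      vz ((n : ℤ) • p (i : ℕ)) (pdir p i) σ - vz ((n : ℤ) • p (i : ℕ)) (pdir p i) τ by
    unfold face; ring]
  exact vp_same (p := p) (n := n) i σ τ

section frame

variable (hp : IsPolygon p) (hD : Encloses p S₀) (hQ : Q.Ok) {g δ : ℝ} (hg : Gap Q l g)
  (hδ : 0 < δ) (hδg : 4 * δ ≤ g) (hn : 16 ≤ δ * n)

include hp hQ hg hδ hδg hn in
/-- Near squares of different rows are near a mark (one side). -/
theorem near_mk {x y : Fin l × Fin (Q.m + 1)} (hxy : x ≠ y) {u v : ℤ × ℤ}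
    (hu : u ∈ (frows θ β p Q n ⌊δ * n⌋₊ bc x).I) (hv : v ∈ (frows θ β p Q n ⌊δ * n⌋₊ bc y).I)
    {ρ : ℤ} (h : nm (u - v) ≤ ρ) : ∃ z, nm (u - hsite p Q n z) ≤ ρ + 1 := by
  have hrow := rows_marks (p := p) hQ hg hδ hδg hn
  have hd : 16 ≤ ⌊δ * n⌋₊ := Nat.le_floor (by push_cast; linarith)
  change u ∈ (frow θ β p Q n ⌊δ * n⌋₊ bc x.1 x.2).I at hu
  change v ∈ (frow θ β p Q n ⌊δ * n⌋₊ bc y.1 y.2).I at hv
  rw [frow_I] at hu hv
  obtain ⟨σ, h1, h2, rfl⟩ := mem_rowP.1 hu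
  obtain ⟨τ, h3, h4, rfl⟩ := mem_rowP.1 hv
  have a1 := hrow.lo x
  have a2 := hrow.hi x
  have a3 := hrow.lo y
  have a4 := hrow.hi y
  have hx2 := x.2.2
  have hy2 := y.2.2
  obtain ⟨-, -, b1, b2⟩ := ends_bd (p := p) hQ hg hδ hδg hn x.1.2 (j := x.2) (by omega)
  obtain ⟨-, -, b3, b4⟩ := ends_bd (p := p) hQ hg hδ hδg hn y.1.2 (j := y.2) (by omega)
  by_cases hi : (x.1 : ℕ) = y.1
  · rw [← hi, op_same] at h
    simp only [← hi] at h3 h4 b3 b4 a3 a4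
    have hj : (x.2 : ℕ) ≠ y.2 := fun hj => hxy (Prod.ext (Fin.ext hi) (Fin.ext hj))
    have hfl : ∀ {j j' : ℕ}, j ≤ j' → j' ≤ Q.m + 1 → ⌊Q.θ x.1 j * n⌋₊ ≤ ⌊Q.θ x.1 j' * n⌋₊ :=
      fun hjj hj' => Nat.floor_le_floor (mul_le_mul_of_nonneg_right
        (theta_mono hQ x.1 hjj hj') (Nat.cast_nonneg n))
    rcases lt_or_gt_of_ne hj with hlt | hgt
    · -- the row `x` is before the row `y`
      obtain ⟨z, hz⟩ := next_mark (n := n) (p := p) hp hQ x.1.2 (j := x.2) (by omega)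
      refine ⟨z, ?_⟩
      rw [hz]
      have c1 := hfl (j := x.2 + 1) (j' := y.2) (by omega) (by omega)
      have c2 := op_vp_near (p := p) (n := n) x.1 (σ := σ) (τ := (⌊Q.θ x.1 (x.2 + 1) * n⌋₊ : ℤ))
      rw [abs_sub_comm, abs_of_nonneg (by omega)] at c2 h
      omega
    · -- the row `x` is after the row `y`
      refine ⟨x, ?_⟩
      have c1 := hfl (j := y.2 + 1) (j' := x.2) (by omega) (by omega)
      have c2 := op_vp_near (p := p) (n := n) x.1 (σ := σ) (τ := (⌊Q.θ x.1 x.2 * n⌋₊ : ℤ))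
      change nm (_ - hsite p Q n x) ≤ _ at c2
      rw [abs_of_nonneg (by omega)] at c2 h
      omega
  · rcases op_sides hp x.1.2 y.1.2 hi (by omega) (by omega) h with c | c
    · refine ⟨(x.1, 0), ?_⟩
      rw [mark_zero x.1.2 hQ]
      have c2 := op_vp_near (p := p) (n := n) x.1 (σ := σ) (τ := 0)
      rw [abs_of_nonneg (by omega)] at c2
      omega
    · obtain ⟨z, hz⟩ := next_mark (n := n) (p := p) hp hQ x.1.2 (j := Q.m) le_rfl
      refine ⟨z, ?_⟩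
      rw [hz, fl_one hQ]
      have c2 := op_near2 (p := p) (n := n) x.1 (σ := σ) (by omega)
      omega

include hp hQ hg hδ hδg hn in
/-- **(B)** Near squares of different rows are near the same mark. -/
theorem near_hole {x y : Fin l × Fin (Q.m + 1)} (hxy : x ≠ y) {u v : ℤ × ℤ}
    (hu : u ∈ (frows θ β p Q n ⌊δ * n⌋₊ bc x).I) (hv : v ∈ (frows θ β p Q n ⌊δ * n⌋₊ bc y).I)
    {ρ : ℤ} (h : nm (u - v) ≤ ρ) (hρ : (ρ : ℝ) + 8 ≤ g / 4 * n) :
    ∃ z, nm (u - hsite p Q n z) ≤ ρ + 1 ∧ nm (v - hsite p Q n z) ≤ ρ + 1 := by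
  obtain ⟨z, hz⟩ := near_mk hp hQ hg hδ hδg hn hxy hu hv h
  obtain ⟨z', hz'⟩ := near_mk hp hQ hg hδ hδg hn hxy.symm hv hu (ρ := ρ)
    (by rw [nm_sub_comm]; exact h)
  have h1 : z = z' := by
    by_contra hne
    have h2 := box_disj (R := 2 * ρ + 2) hp hQ hg (n := n) (by push_cast; linarith) hne
    have h3 := nm_tri u v (hsite p Q n z')
    have h0 := (nm_nonneg _).trans h
    exact Finset.disjoint_left.1 h2 (Bq_of (v := u) (by omega)) (Bq_of (v := u) (by omega))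
  rw [← h1] at hz'
  exact ⟨z, hz, hz'⟩

include hp hQ hg hδ hδg hn in
/-- **(C)** A square near a tip is near a mark. -/
theorem far_hole (x : Fin l × Fin (Q.m + 1)) {k : Fin 3} (hk : k ≠ 2) {u : ℤ × ℤ} {ρ : ℤ}
    (h : nm (u - ctr (frows θ β p Q n ⌊δ * n⌋₊ bc x) k) ≤ ρ) :
    ∃ z, nm (u - hsite p Q n z) ≤ ρ + ⌊δ * n⌋₊ + 2 := by
  obtain ⟨z, hz⟩ := ctr_tip (θ := θ) (β := β) (bc := bc) hp hQ hg hδ hδg hn x hk
  have h3 := nm_tri u (ctr (frows θ β p Q n ⌊δ * n⌋₊ bc x) k) (hsite p Q n z)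
  exact ⟨z, by omega⟩

/-! ### the rows are macroscopic -/

/-- The side of the base point. -/
theorem kndg_zero (hp : IsPolygon p) (hD : Encloses p S₀) (hQ : Q.Ok) (hθ : 0 < θ)
    (hθ' : 3 * θ ≤ Real.pi) (hβ : β = (θ - Real.pi) / 2 ∨ β = (Real.pi - 3 * θ) / 2) {g δ κ : ℝ}
    (hg : Gap Q l g) (hbg : BGap l Q g bc) (hκ : κ * n + δ * n + 2 ≤ g * n)
    {j s e : ℕ} (h : RB l n Q g δ 0 j s e) :
    Knd θ β p n (tB n Q) (bc.ka l n (tB n Q)) 0 s e (tB n Q) κ := by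
  have hn0 : (0 : ℝ) ≤ n := Nat.cast_nonneg n
  have hd : ∀ ia ta, bc = Bc.dob ia ta → 0 < ia ∧ ia < l ∧ 0 < ta ∧ ta < 1 := by
    rintro ia ta rfl
    exact ⟨hbg.1, hbg.2.1, hbg.2.2.1, hbg.2.2.2.1⟩
  have htp := hQ.tp0
  have tpn : (tB n Q : ℝ) ≤ Q.tp * n ∧ Q.tp * n < tB n Q + 1 :=
    ⟨Nat.floor_le (by positivity), Nat.lt_floor_add_one _⟩
  have s3 := h.s3
  have e3 := h.e3
  have hse := h.se
  have hsn := h.sn
  have hen := h.en
  have same : (tB n Q ≤ s ↔ tB n Q ≤ e - 1) →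
      Knd θ β p n (tB n Q) (bc.ka l n (tB n Q)) 0 s e (tB n Q) κ := by
    intro h1
    have h1' : tB n Q ≤ 0 * n + s ↔ tB n Q ≤ 0 * n + (e - 1) := by omega
    refine knd_same h.il h.ht hsn hen h1' (ka_same h.il h.ht hsn hen fun ia ta hb => ?_)
    obtain ⟨k1, k2, k3, k4⟩ := hd ia ta hb
    have h7 : 1 * n ≤ ia * n := Nat.mul_le_mul_right n k1
    refine ⟨k1, k2, k3, k4, ?_⟩
    omega
  rcases lt_or_ge Q.tp (Q.θ 0 j) with hc | hc
  · have h1 : tB n Q ≤ ⌊Q.θ 0 j * n⌋₊ :=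
      Nat.floor_le_floor (mul_le_mul_of_nonneg_right hc.le hn0)
    exact same (by omega)
  · rcases lt_or_ge Q.tp (Q.θ 0 (j + 1)) with hc' | hc'
    · have hc2 : Q.θ 0 j < Q.tp := lt_of_le_of_ne hc (hQ.tpne j)
      obtain ⟨q1, q2⟩ := hg.tp h.jm hc2 hc'
      have q1n : Q.θ 0 j * n + g * n ≤ Q.tp * n := by nlinarith
      have q2n : Q.tp * n + g * n ≤ Q.θ 0 (j + 1) * n := by nlinarith
      have s2 := h.s2
      have e1 := h.e1
      have hgn := h.gn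
      have hn := h.hn
      have r1 : (s : ℝ) + κ * n ≤ tB n Q := by linarith
      have r2 : (tB n Q : ℝ) + κ * n ≤ e := by linarith
      have r3 : (s : ℝ) < tB n Q := by linarith
      have r4 : (tB n Q : ℝ) < e := by linarith
      exact knd_base hp hD hθ hθ' hβ h.il h.ht hsn hen (by exact_mod_cast r3)
        (by exact_mod_cast r4) r1 r2 hd
    · have h1 : ⌊Q.θ 0 (j + 1) * n⌋₊ ≤ tB n Q :=
        Nat.floor_le_floor (mul_le_mul_of_nonneg_right hc' hn0)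
      exact same (by omega)

/-- The other sides. -/
theorem kndg_pos (hθ : 0 < θ) (hθ' : 3 * θ ≤ Real.pi)
    (hβ : β = (θ - Real.pi) / 2 ∨ β = (Real.pi - 3 * θ) / 2) {g δ κ : ℝ} (hbg : BGap l Q g bc)
    (hκ : κ * n + δ * n + 2 ≤ g * n) {i j s e : ℕ} (hi0 : 0 < i) (h : RB l n Q g δ i j s e) :
    Knd θ β p n (tB n Q) (bc.ka l n (tB n Q)) i s e (bc.tn n) κ := by
  have hn0 : (0 : ℝ) ≤ n := Nat.cast_nonneg n
  have s3 := h.s3
  have e3 := h.e3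
  have hse := h.se
  have hsn := h.sn
  have hen := h.en
  have ht := h.ht
  have h8 : 1 * n ≤ i * n := Nat.mul_le_mul_right n hi0
  have both : tB n Q ≤ i * n + s ↔ tB n Q ≤ i * n + (e - 1) := by omega
  by_cases hcase : ∃ ta, bc = Bc.dob i ta ∧ Q.θ i j ≤ ta ∧ ta < Q.θ i (j + 1)
  · obtain ⟨ta, rfl, hc, hc'⟩ := hcase
    obtain ⟨k1, k2, k3, k4, k5⟩ := hbg
    have d1 := k5 j (by have := h.jm; omega)
    have d2 := k5 (j + 1) (by have := h.jm; omega)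
    rw [abs_of_nonpos (by linarith)] at d1
    rw [abs_of_nonneg (by linarith)] at d2
    have tan : (⌊ta * n⌋₊ : ℝ) ≤ ta * n ∧ ta * n < ⌊ta * n⌋₊ + 1 :=
      ⟨Nat.floor_le (by positivity), Nat.lt_floor_add_one _⟩
    have q1n : Q.θ i j * n + g * n ≤ ta * n := by nlinarith
    have q2n : ta * n + g * n ≤ Q.θ i (j + 1) * n := by nlinarith
    have s2 := h.s2
    have e1 := h.e1
    have hgn := h.gn
    have hn := h.hn
    have r1 : (s : ℝ) + κ * n ≤ ⌊ta * n⌋₊ := by linarith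
    have r2 : (⌊ta * n⌋₊ : ℝ) + κ * n ≤ e := by linarith
    have r3 : (s : ℝ) < ⌊ta * n⌋₊ := by linarith
    have r4 : (⌊ta * n⌋₊ : ℝ) < e := by linarith
    exact knd_jun hθ hθ' hβ h.il hi0 ht hsn hen (by exact_mod_cast r3) (by exact_mod_cast r4)
      (dob_lt k3 k4 h.n0) r1 r2
  · refine knd_same h.il ht hsn hen both (ka_same h.il ht hsn hen fun ia ta hb => ?_)
    subst hb
    obtain ⟨k1, k2, k3, k4, k5⟩ := hbg
    refine ⟨k1, k2, k3, k4, ?_⟩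
    rcases lt_trichotomy i ia with hlt | rfl | hgt
    · have h9 : (i + 1) * n ≤ ia * n := Nat.mul_le_mul_right n hlt
      rw [add_mul, one_mul] at h9
      omega
    · rcases lt_or_ge ta (Q.θ i j) with hc | hc
      · have h1 : ⌊ta * n⌋₊ ≤ ⌊Q.θ i j * n⌋₊ :=
          Nat.floor_le_floor (mul_le_mul_of_nonneg_right hc.le hn0)
        omega
      · rcases lt_or_ge ta (Q.θ i (j + 1)) with hc' | hc'
        · exact absurd ⟨ta, rfl, hc, hc'⟩ hcase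
        · have h1 : ⌊Q.θ i (j + 1) * n⌋₊ ≤ ⌊ta * n⌋₊ :=
            Nat.floor_le_floor (mul_le_mul_of_nonneg_right hc' hn0)
          omega
    · have h9 : (ia + 1) * n ≤ i * n := Nat.mul_le_mul_right n hgt
      rw [add_mul, one_mul] at h9
      have h10 := dob_lt k3 k4 h.n0
      omega

/-- **(A)** The rows of the frame are macroscopic: lengths and distances `≥ (g / 4) n`. -/
theorem frows_okg (hp : IsPolygon p) (hD : Encloses p S₀) (hQ : Q.Ok) (hθ : 0 < θ)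
    (hθ' : 3 * θ ≤ Real.pi) (hβ : β = (θ - Real.pi) / 2 ∨ β = (Real.pi - 3 * θ) / 2) {g δ : ℝ}
    (hg : Gap Q l g) (hbg : BGap l Q g bc) (hδ : 0 < δ) (hδg : 4 * δ ≤ g) (hn : 16 ≤ δ * n)
    (x : Fin l × Fin (Q.m + 1)) : (frows θ β p Q n ⌊δ * n⌋₊ bc x).Ok θ (g / 4) n := by
  have hl : 0 < l := by have := hp.1; omega
  have hn0 : (0 : ℝ) ≤ n := Nat.cast_nonneg n
  have h := rb_of (p := p) hQ hg hδ hδg hn x.1.2 (j := x.2) (by omega)
  obtain ⟨c1, c2, c3, c4, c5⟩ := gn_big hQ hg hδg hn hl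
  have g1 := hg.1 x.1 x.1.2 x.2 (by omega)
  have g2 : g * n ≤ (Q.θ x.1 (x.2 + 1) - Q.θ x.1 x.2) * n :=
    mul_le_mul_of_nonneg_right (by linarith) hn0
  have hgn := h.gn
  have s2 := h.s2
  have e1 := h.e1
  change (frow θ β p Q n ⌊δ * n⌋₊ bc x.1 x.2).Ok θ (g / 4) n
  unfold frow
  refine srow_kind (by linarith) h.se.le (fun σ => stτ_or _ _) ?_
  rcases Nat.eq_zero_or_pos (x.1 : ℕ) with hx | hi0
  · rw [hx] at h ⊢
    rw [if_pos rfl]
    exact kndg_zero hp hD hQ hθ hθ' hβ hg hbg (by linarith) h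
  · rw [if_neg hi0.ne']
    exact kndg_pos hθ hθ' hβ hbg (by linarith) hi0 h

/-! ### colours and windows -/

include hp hQ hg in
/-- All steps near a mark are on the same side of the junction. -/
theorem mark_side (hbg : BGap l Q g bc) {R : ℤ} (hR : (2 * R : ℝ) + 4 < g * n)
    (z : Fin l × Fin (Q.m + 1)) {i σ : ℕ} (hi : i < l) (hσ : σ < n)
    (h : op p n i σ ∈ Bq (hsite p Q n z) R) :
    (kOf l n (tB n Q) i σ < bc.ka l n (tB n Q) ↔
      kOf l n (tB n Q) z.1 (pA n Q z) < bc.ka l n (tB n Q)) ∧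
    (kOf l n (tB n Q) i σ < bc.ka l n (tB n Q) ↔ bcol p Q bc n z = false) := by
  have h3 : nm (vp p n i σ - hsite p Q n z) ≤ R + 1 := by
    have a1 := op_near (p := p) (n := n) i σ
    have a2 := nm_tri (vp p n i σ) (op p n i σ) (hsite p Q n z)
    have a3 := mem_Bq' h
    rw [nm_sub_comm (vp p n i σ) (op p n i σ)] at a2
    omega
  have h4 := window_col (m := R + 1) hp hQ hg hbg (by push_cast; linarith) hi hσ h3
  refine ⟨h4, h4.trans ?_⟩
  unfold bcol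
  rw [decide_eq_false_iff_not, not_not]

include hp hD hQ hg hδ hδg hn in
/-- The frozen colour of a step of a row. -/
theorem frz_step (hb : bc.Ok l Q) {ω : Cfg} (hω : Frz (frows θ β p Q n ⌊δ * n⌋₊ bc) ω)
    (x : Fin l × Fin (Q.m + 1)) {σ : ℕ} (h1 : sW p n Q ⌊δ * n⌋₊ x.1 x.2 ≤ σ)
    (h2 : σ < eW p n Q ⌊δ * n⌋₊ x.1 x.2) :
    (ω (op p n x.1 σ) = false ↔ kOf l n (tB n Q) x.1 σ < bc.ka l n (tB n Q)) ∧
      (ω (op p n x.1 σ) = true ↔ ¬ kOf l n (tB n Q) x.1 σ < bc.ka l n (tB n Q)) := by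
  have hd : 16 ≤ ⌊δ * n⌋₊ := Nat.le_floor (by push_cast; linarith)
  have h3 := lt_n hQ (by omega : 1 ≤ ⌊δ * n⌋₊) (Nat.lt_succ_iff.1 x.2.isLt) h1 h2
  have h4 := frz_col hp hD hQ hg hδ hδg hn hω hb x.1.2 h3 (mem_frmQ.2 ⟨x, σ, h1, h2, rfl⟩)
  rw [h4, decide_eq_true_iff, decide_eq_false_iff_not, not_not]
  exact ⟨Iff.rfl, Iff.rfl⟩

/-- The zero flow. -/
theorem flow_zero {D : Finset (ℤ × ℤ)} {κ : ℝ} : FlowIn D κ 0 n 0 where
  sup e h := absurd rfl h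
  cle e := by simp
  dle z := by
    have : dv (0 : Ed → ℝ) z = 0 := by simp [dv]
    rw [this]; simp

include hp hD hQ hg hδ hδg hn in
/-- **The windows of all marks**, any radius `R` with `⌊δ n⌋ + 3 ≤ R`, `2 R + 8 < g n`. -/
theorem frame_holeW (hb' : bc.Ok l Q) (hbg : BGap l Q g bc) {R : ℕ} (hR1 : ⌊δ * n⌋₊ + 3 ≤ R)
    (hR2 : (2 * R : ℝ) + 8 < g * n) (x : Fin l × Fin (Q.m + 1)) :
    HoleW θ (hc θ β p n Q bc x) (hτ l n Q bc x) (hsite p Q n x) (uB p n Q x)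
        (uA p n Q x - uB p n Q x) (R - gB p n Q ⌊δ * n⌋₊ x) (R - gA p n Q ⌊δ * n⌋₊ x) R
        (bS (uI (frows θ β p Q n ⌊δ * n⌋₊ bc)))
        (rowC θ (frows θ β p Q n ⌊δ * n⌋₊ bc) 0).ph ∧
      ∀ v ∈ Bq (hsite p Q n x) R, v ∉ uI (frows θ β p Q n ⌊δ * n⌋₊ bc) →
        v ∈ Wn (hsite p Q n x) (uB p n Q x) (uA p n Q x - uB p n Q x)
          (R - gB p n Q ⌊δ * n⌋₊ x) (R - gA p n Q ⌊δ * n⌋₊ x) R := by
  have hd1 : 16 ≤ ⌊δ * n⌋₊ := Nat.le_floor (by push_cast; linarith)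
  have hrow : RowsP p Q n ⌊δ * n⌋₊ (⌊δ * n⌋₊ - 1) := rows_marks (p := p) hQ hg hδ hδg hn
  have h1 := PT_holeW (θ := θ) (β := β) (Zr := fun _ _ => 0) (c := 0) hp hD hQ hg hδ hδg hn hR1 hR2
    hb' hbg (κ₀ := g) (B₀ := 0) flow_zero (by linarith) x
  rw [uI_frows]
  have h2 : (PT θ β p Q n ⌊δ * n⌋₊ bc (fun _ _ => 0) 0).S = bS (frmP p Q n ⌊δ * n⌋₊) :=
    PT_S hrow hp (by omega)
  rw [h2] at h1
  exact h1

end frame

end Vale.Agent.P167.Enl
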