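import Vale.Agent.P167.H871.Q.Far
import Vale.Agent.P167.H592.S.Close

/-!
# P167, general `q`: the rows of the frame as rows outside of a closed path

The rows of the frame of the enlargement satisfy `H871.Q.Rws` in the corner numbering (window from
`l n - t`).
-/

namespace Vale.Agent.P167.Enl

open Finset
open Vale.Agent.P167.Top
open Vale.Agent.P167.FK (Bq Good)
open Vale.Agent.P167.E6 (IsPolygon Encloses dir face)
open Vale.Agent.P167.H825 (enl pdir ptau Marks FlowIn bsite rnd)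
open Vale.Agent.P167.H825.Q (Row Bc)
open Vale.Agent.P167.H680.T (rowC uI frows)
open Vale.Agent.P167.H662 (hsite)
open Vale.Agent.P167.H199 (Gap)
open Vale.Agent.P167.H398.Q (hB)
open Vale.Agent.P167.H871 (Bd sqL sqL_congr vec_fin face_pred P4 M4 M4_congr)
open Vale.Agent.P167.H199 (ret Returns)
open Vale.Agent.P167.XDL (bS)
open Vale.Agent.P167.QX (ExtPot exc)
open Vale.Agent.P167.H871.Q (Rws rws osqs ends Cov cov_of InK far_turn)

variable {l : ℕ} {p : ZMod l → ℤ × ℤ} {n t : ℕ} {S₀ : Finset (ℤ × ℤ)} {Q : Marks} {bc : Bc}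
  {d : ℕ} {θ β : ℝ}

/-- The first site of the row `a`, corner numbering. -/
noncomputable def sR (p : ZMod l → ℤ × ℤ) (n : ℕ) (Q : Marks) (d a : ℕ) : ℕ :=
  a / (Q.m + 1) * n + sW p n Q d (a / (Q.m + 1)) (a % (Q.m + 1))

/-- The last site of the row `a`, corner numbering. -/
noncomputable def eR (p : ZMod l → ℤ × ℤ) (n : ℕ) (Q : Marks) (d a : ℕ) : ℕ :=
  a / (Q.m + 1) * n + eW p n Q d (a / (Q.m + 1)) (a % (Q.m + 1))

/-- The sites of the enlargement, corner numbering. -/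
def pW (p : ZMod l → ℤ × ℤ) (n t : ℕ) (k : ℕ) : ℤ × ℤ :=
  qN p n t ((k + (l * n - t) : ℕ) : ZMod (l * n))

/-- The directions of the enlargement, corner numbering. -/
def uW (p : ZMod l → ℤ × ℤ) (n t : ℕ) (k : ℕ) : ℤ := uN p n t (k + (l * n - t))

section

theorem t_le (ht : t < n) (hl : 0 < l) : t ≤ l * n := by
  have := Nat.le_mul_of_pos_left n hl
  omega

variable (hn : 0 < n) (ht : t < n) (hl : 0 < l)

include hn ht hl

theorem pW_eq (k : ℕ) : pW p n t k = PN p n k := by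
  have : NeZero l := ⟨by omega⟩
  have h1 := t_le (l := l) ht hl
  unfold pW
  rw [qN_nat hn, show k + (l * n - t) + t = k + l * n by omega, PN_add_l hn]

theorem pW_vp {i σ : ℕ} (hσ : σ < n) : pW p n t (i * n + σ) = vp p n i σ := by
  rw [pW_eq hn ht hl, PN_lin hn hσ, vp_def]

theorem uW_eq (k : ℕ) : uW p n t k = (((pdir p 0).val : ℕ) : ℤ) + ptau p (k / n + l) := by
  have h1 := t_le (l := l) ht hl
  unfold uW uN
  rw [show k + (l * n - t) + t = k + l * n by omega, Nat.add_mul_div_right _ _ hn]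

theorem uW_same {i σ τ : ℕ} (hσ : σ < n) (hτ : τ < n) :
    uW p n t (i * n + σ) = uW p n t (i * n + τ) := by
  rw [uW_eq hn ht hl, uW_eq hn ht hl]
  have h : ∀ {σ : ℕ}, σ < n → (i * n + σ) / n = i := fun hσ => by
    rw [add_comm, Nat.add_mul_div_right _ _ hn, Nat.div_eq_of_lt hσ, zero_add]
  rw [h hσ, h hτ]

end

/-- The direction of a step, corner numbering. -/
theorem uW_mod (hp : IsPolygon p) (hD : Encloses p S₀) (hn : 0 < n) (ht : t < n) {i σ : ℕ}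
    (hσ : σ < n) : uW p n t (i * n + σ) % 4 = (((pdir p i).val : ℕ) : ℤ) := by
  have hl : 0 < l := by have := hp.1; omega
  have h1 := (H871.Q.bd_shift (bd_qN hn hp hD ht) (l * n - t)).step (i * n + σ)
  change pW p n t (i * n + σ + 1) = pW p n t (i * n + σ) + vec (uW p n t (i * n + σ)) at h1
  rw [pW_eq hn ht hl, pW_eq hn ht hl, PN_succ hn hp] at h1
  have h2 : (i * n + σ) / n = i := by
    rw [add_comm, Nat.add_mul_div_right _ _ hn, Nat.div_eq_of_lt hσ, zero_add]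
  rw [h2] at h1
  have h3 := add_left_cancel h1
  rw [← vec_fin] at h3
  have h4 := vec_eq_mod h3
  have h5 := (pdir p i).isLt
  omega

theorem vec_pred {u : ℤ} {r : Fin 4} (hu : u % 4 = ((r.val : ℕ) : ℤ)) :
    vec (u - 1) = dir (r - 1) := by
  rw [← vec_fin]
  apply vec_congr
  rcases fin4_cases r with rfl | rfl | rfl | rfl
  · rw [m01]; simp only [Fin.val_zero] at hu; show (u - 1) % 4 = 3 % 4; omega
  · rw [m11]; simp only [Fin.val_one] at hu; show (u - 1) % 4 = 0 % 4; omega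
  · rw [m21]; change u % 4 = 2 at hu; show (u - 1) % 4 = 1 % 4; omega
  · rw [m31]; change u % 4 = 3 at hu; show (u - 1) % 4 = 2 % 4; omega

/-- The square outside of a step, corner numbering. -/
theorem sqL_op (hp : IsPolygon p) (hD : Encloses p S₀) (hn : 0 < n) (ht : t < n) {i σ : ℕ}
    (hσ : σ < n) :
    sqL (pW p n t (i * n + σ)) (uW p n t (i * n + σ) - 1) = op p n i σ := by
  have hl : 0 < l := by have := hp.1; omega
  have h1 := uW_mod hp hD hn ht (i := i) hσ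
  rw [pW_vp hn ht hl hσ]
  show _ = face (vp p n i σ) (pdir p i - 1)
  rw [face_pred]
  exact sqL_congr (by omega)

/-- The site beyond a step is not a site of the line. -/
theorem vz_out (z : ℤ × ℤ) (r : Fin 4) (σ τ : ℤ) : vz z r τ ≠ vz z r σ + dir (r - 1) := by
  obtain ⟨h0, h1, h2, h3⟩ := vz_eq z τ
  obtain ⟨k0, k1, k2, k3⟩ := vz_eq z σ
  intro h
  rcases fin4_cases r with rfl | rfl | rfl | rfl
  · rw [h0, k0, m01, dir3, Prod.ext_iff] at h; simp at h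
  · rw [h1, k1, m11, dir0, Prod.ext_iff] at h; simp at h
  · rw [h2, k2, m21, dir1, Prod.ext_iff] at h; simp at h
  · rw [h3, k3, m31, dir2, Prod.ext_iff] at h; simp at h

section rows

variable (hp : IsPolygon p) (hD : Encloses p S₀) (hQ : Q.Ok) {g δ : ℝ} (hg : Gap Q l g)
  (hδ : 0 < δ) (hδg : 4 * δ ≤ g) (hn : 16 ≤ δ * n)

/-- The data of the row `a`. -/
theorem row_dat {a : ℕ} (ha : a < l * (Q.m + 1)) :
    a / (Q.m + 1) < l ∧ a % (Q.m + 1) ≤ Q.m ∧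
      a = a / (Q.m + 1) * (Q.m + 1) + a % (Q.m + 1) := by
  refine ⟨Nat.div_lt_of_lt_mul (by rw [mul_comm]; exact ha), ?_, ?_⟩
  · have := Nat.mod_lt a (show 0 < Q.m + 1 by omega)
    omega
  · have := Nat.div_add_mod' a (Q.m + 1)
    omega

include hQ hg hδ hδg hn in
/-- The ends of the row `a`. -/
theorem row_bds {a : ℕ} (ha : a < l * (Q.m + 1)) :
    15 ≤ sW p n Q ⌊δ * n⌋₊ (a / (Q.m + 1)) (a % (Q.m + 1)) ∧
    sW p n Q ⌊δ * n⌋₊ (a / (Q.m + 1)) (a % (Q.m + 1)) <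
      eW p n Q ⌊δ * n⌋₊ (a / (Q.m + 1)) (a % (Q.m + 1)) ∧
    eW p n Q ⌊δ * n⌋₊ (a / (Q.m + 1)) (a % (Q.m + 1)) + 15 ≤ n := by
  obtain ⟨h1, h2, -⟩ := row_dat ha
  have h := rb_of (p := p) hQ hg hδ hδg hn h1 h2
  have h3 := ends_bd (p := p) hQ hg hδ hδg hn h1 h2
  have h4 : 16 ≤ ⌊δ * n⌋₊ := Nat.le_floor (by push_cast; linarith)
  have h5 := (fl hQ n (a / (Q.m + 1)) (j := a % (Q.m + 1) + 1) (by omega)).2.2
  have h6 := h.se
  omega

include hQ hg hδ hδg hn in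
/-- The rows are in order. -/
theorem row_sep {a b : ℕ} (ha : a < l * (Q.m + 1)) (hb : b < a) :
    eR p n Q ⌊δ * n⌋₊ b < sR p n Q ⌊δ * n⌋₊ a := by
  obtain ⟨a1, a2, a3⟩ := row_dat ha
  obtain ⟨b1, b2, b3⟩ := row_dat (Q := Q) (l := l) (a := b) (by omega)
  have a4 := row_bds (p := p) hQ hg hδ hδg hn ha
  have b4 := row_bds (p := p) (a := b) hQ hg hδ hδg hn (by omega)
  unfold eR sR
  have h1 : b / (Q.m + 1) ≤ a / (Q.m + 1) := Nat.div_le_div_right hb.le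
  rcases Nat.lt_or_ge (b / (Q.m + 1)) (a / (Q.m + 1)) with h2 | h2
  · have h3 : (b / (Q.m + 1) + 1) * n ≤ a / (Q.m + 1) * n := Nat.mul_le_mul_right n h2
    rw [add_mul, one_mul] at h3
    omega
  · have h3 : b / (Q.m + 1) = a / (Q.m + 1) := by omega
    have h4 : b % (Q.m + 1) < a % (Q.m + 1) := by
      rw [h3] at b3
      omega
    have c1 := (ends_bd (p := p) hQ hg hδ hδg hn a1 (j := b % (Q.m + 1)) (by omega)).2.2.2
    have c2 := (ends_bd (p := p) hQ hg hδ hδg hn a1 (j := a % (Q.m + 1)) a2).2.2.1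
    have c3 : ⌊Q.θ (a / (Q.m + 1)) (b % (Q.m + 1) + 1) * n⌋₊ ≤
        ⌊Q.θ (a / (Q.m + 1)) (a % (Q.m + 1)) * n⌋₊ :=
      Nat.floor_le_floor (mul_le_mul_of_nonneg_right
        (theta_mono hQ _ (by omega) (by omega)) (Nat.cast_nonneg n))
    have c4 : 16 ≤ ⌊δ * n⌋₊ := Nat.le_floor (by push_cast; linarith)
    rw [h3]
    omega

/-- The site beyond a site, corner numbering. -/
theorem nm_out (r r' : Fin 4) : nm (dir r) = 1 ∧ nm (dir r - dir r') ≤ 2 := by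
  have h1 := nm_dir 1 r
  have h2 := nm_dir 1 r'
  rw [one_smul, abs_one] at h1 h2
  have h3 := nm_tri (dir r) 0 (dir r')
  rw [sub_zero, zero_sub] at h3
  have h4 : nm (-dir r') = nm (dir r') := by
    have := nm_sub_comm (0 : ℤ × ℤ) (dir r')
    rwa [zero_sub, sub_zero] at this
  exact ⟨h1, by omega⟩

include hp hD hQ hg hδ hδg hn in
/-- **The rows of the frame.** -/
theorem frame_rws : Rws (enl S₀ n : Set (ℤ × ℤ)) (l * n)
    (fun k => qN p n (tB n Q) ((k + (l * n - tB n Q) : ℕ) : ZMod (l * n)))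
    (fun k => uN p n (tB n Q) (k + (l * n - tB n Q))) (l * (Q.m + 1))
    (sR p n Q ⌊δ * n⌋₊) (eR p n Q ⌊δ * n⌋₊) := by
  have hl : 0 < l := by have := hp.1; omega
  obtain ⟨-, -, -, -, b5⟩ := gn_big hQ hg hδg hn hl
  have ht := tB_lt (n := n) hQ b5
  have hbd := bd_qN b5 hp hD ht
  have hln : 0 < l * n := Nat.mul_pos hl b5
  have hB := fun {a : ℕ} (ha : a < l * (Q.m + 1)) => row_bds (p := p) hQ hg hδ hδg hn ha
  have hlast : ∀ a < l * (Q.m + 1), (a / (Q.m + 1) + 1) * n ≤ l * n := fun a ha =>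
    Nat.mul_le_mul_right n (row_dat ha).1
  -- a site of a row
  have hsite : ∀ a < l * (Q.m + 1), ∀ k, sR p n Q ⌊δ * n⌋₊ a ≤ k + 1 → k ≤ eR p n Q ⌊δ * n⌋₊ a →
      ∃ σ, k = a / (Q.m + 1) * n + σ ∧ 14 ≤ σ ∧ σ + 15 ≤ n := by
    intro a ha k h1 h2
    have h3 := hB ha
    unfold sR at h1
    unfold eR at h2
    exact ⟨k - a / (Q.m + 1) * n, by omega, by omega, by omega⟩
  have hstr : ∀ a < l * (Q.m + 1), ∀ k, sR p n Q ⌊δ * n⌋₊ a ≤ k + 1 →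
      k ≤ eR p n Q ⌊δ * n⌋₊ a → uW p n (tB n Q) k = uW p n (tB n Q) (sR p n Q ⌊δ * n⌋₊ a) := by
    intro a ha k h1 h2
    obtain ⟨σ, rfl, h3, h4⟩ := hsite a ha k h1 h2
    have h5 := hB ha
    exact uW_same b5 ht hl (by omega) (by omega)
  have hvec : ∀ a < l * (Q.m + 1), vec (uW p n (tB n Q) (sR p n Q ⌊δ * n⌋₊ a) - 1) =
      dir (pdir p (a / (Q.m + 1)) - 1) := by
    intro a ha
    have h5 := hB ha
    exact vec_pred (uW_mod hp hD b5 ht (by omega))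
  have hall : ∀ k, ∃ i σ : ℕ, i < l ∧ σ < n ∧ pW p n (tB n Q) k = vp p n i σ := by
    intro k
    refine ⟨k % (l * n) / n, k % (l * n) % n, ?_, Nat.mod_lt _ b5, ?_⟩
    · have := Nat.mod_lt k hln
      exact Nat.div_lt_of_lt_mul (by rw [mul_comm n l]; exact this)
    · rw [pW_eq b5 ht hl, ← PN_mod b5, vp_def]
      rfl
  refine ⟨H871.Q.bd_shift hbd _, (cov_of (isPolygon_qN b5 hp (tB n Q))
    (encloses_qN b5 hp hD (tB n Q)) hbd).shift hbd hln _, ?_, ?_, ?_, ?_, ?_, ?_, ?_⟩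
  · intro a ha
    have h5 := hB ha
    unfold sR
    omega
  · intro a ha
    have h5 := hB ha
    unfold sR eR
    omega
  · intro a ha
    have h5 := hB ha
    have h6 := hlast a ha
    rw [add_mul, one_mul] at h6
    unfold eR
    omega
  · exact fun a ha b hb => row_sep hQ hg hδ hδg hn ha hb
  · exact hstr
  · intro a ha k h1 h2 k'
    change pW p n (tB n Q) k' ≠ pW p n (tB n Q) k + vec (uW p n (tB n Q) (sR p n Q ⌊δ * n⌋₊ a) - 1)
    rw [hvec a ha]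
    obtain ⟨σ, rfl, h3, h4⟩ := hsite a ha k (by omega) h2
    obtain ⟨i', σ', h5, h6, h7⟩ := hall k'
    rw [h7, pW_vp b5 ht hl (by omega)]
    by_cases hi : a / (Q.m + 1) = i'
    · rw [hi]
      exact vz_out _ _ _ _
    · intro h8
      have h9 := vp_far (n := n) (m := 14) (σ := (σ : ℤ)) (σ' := (σ' : ℤ)) hp (row_dat ha).1 h5 hi
        (by omega) (by omega) (by omega) (by omega) (by omega)
      rw [h8, nm_sub_comm, add_sub_cancel_left, (nm_out _ 0).1] at h9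
      omega
  · intro a ha b hb k k' h1 h2 h1' h2'
    change pW p n (tB n Q) k + vec (uW p n (tB n Q) (sR p n Q ⌊δ * n⌋₊ a) - 1) ≠
      pW p n (tB n Q) k' + vec (uW p n (tB n Q) (sR p n Q ⌊δ * n⌋₊ b) - 1)
    have hb' : b < l * (Q.m + 1) := by omega
    have hsep := row_sep (p := p) hQ hg hδ hδg hn ha hb
    rw [hvec a ha, hvec b hb']
    obtain ⟨σ, rfl, h3, h4⟩ := hsite a ha k (by omega) h2
    obtain ⟨τ, rfl, h3', h4'⟩ := hsite b hb' k' (by omega) h2'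
    rw [pW_vp b5 ht hl (by omega), pW_vp b5 ht hl (by omega)]
    intro h8
    by_cases hi : a / (Q.m + 1) = b / (Q.m + 1)
    · rw [hi] at h8 h1 h2
      have h9 := add_right_cancel h8
      have h10 := vp_same (p := p) (n := n) (b / (Q.m + 1)) σ τ
      rw [h9, sub_self] at h10
      have h11 : nm (0 : ℤ × ℤ) = 0 := by simp [nm]
      rw [h11] at h10
      have h12 : (σ : ℤ) - τ = 0 := abs_eq_zero.1 h10.symm
      omega
    · have h9 := vp_far (n := n) (m := 14) (σ := (σ : ℤ)) (σ' := (τ : ℤ)) hp (row_dat ha).1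
        (row_dat hb').1 hi (by omega) (by omega) (by omega) (by omega) (by omega)
      have h10 : vp p n (a / (Q.m + 1)) σ - vp p n (b / (Q.m + 1)) τ =
          dir (pdir p (b / (Q.m + 1)) - 1) - dir (pdir p (a / (Q.m + 1)) - 1) := by
        rw [sub_eq_sub_iff_add_eq_add, h8, add_comm]
      rw [h10] at h9
      have h11 := (nm_out (pdir p (b / (Q.m + 1)) - 1) (pdir p (a / (Q.m + 1)) - 1)).2
      omega

/-- The numbers of the rows. -/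
theorem row_num {i j : ℕ} (hi : i < l) (hj : j ≤ Q.m) :
    i * (Q.m + 1) + j < l * (Q.m + 1) ∧ (i * (Q.m + 1) + j) / (Q.m + 1) = i ∧
      (i * (Q.m + 1) + j) % (Q.m + 1) = j := by
  have h1 : (i + 1) * (Q.m + 1) ≤ l * (Q.m + 1) := Nat.mul_le_mul_right _ hi
  rw [add_mul, one_mul] at h1
  refine ⟨by omega, ?_, ?_⟩
  · rw [add_comm, Nat.add_mul_div_right _ _ (by omega), Nat.div_eq_of_lt (by omega), zero_add]
  · rw [add_comm, Nat.add_mul_mod_self_right, Nat.mod_eq_of_lt (by omega)]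

theorem sR_num {i j : ℕ} (hi : i < l) (hj : j ≤ Q.m) :
    sR p n Q d (i * (Q.m + 1) + j) = i * n + sW p n Q d i j ∧
      eR p n Q d (i * (Q.m + 1) + j) = i * n + eW p n Q d i j := by
  obtain ⟨-, h2, h3⟩ := row_num (Q := Q) hi hj
  unfold sR eR
  rw [h2, h3]
  exact ⟨rfl, rfl⟩

include hp hD hQ hg hδ hδg hn in
/-- **The squares of the rows.** -/
theorem frame_sq : (uI (frows θ β p Q n ⌊δ * n⌋₊ bc) : Set (ℤ × ℤ)) =
    rws (fun k => qN p n (tB n Q) ((k + (l * n - tB n Q) : ℕ) : ZMod (l * n)))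
      (fun k => uN p n (tB n Q) (k + (l * n - tB n Q))) (l * (Q.m + 1))
      (sR p n Q ⌊δ * n⌋₊) (eR p n Q ⌊δ * n⌋₊) := by
  have hl : 0 < l := by have := hp.1; omega
  obtain ⟨-, -, -, -, b5⟩ := gn_big hQ hg hδg hn hl
  have ht := tB_lt (n := n) hQ b5
  have hB := fun {a : ℕ} (ha : a < l * (Q.m + 1)) => row_bds (p := p) hQ hg hδ hδg hn ha
  ext v
  rw [mem_coe, uI_frows, mem_frmQ]
  constructor
  · rintro ⟨⟨⟨i, hi⟩, ⟨j, hj⟩⟩, σ, h1, h2, rfl⟩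
    simp only at h1 h2 ⊢
    obtain ⟨g1, g2, g3⟩ := row_num (Q := Q) hi (show j ≤ Q.m by omega)
    obtain ⟨g4, g5⟩ := sR_num (p := p) (n := n) (Q := Q) (d := ⌊δ * n⌋₊) hi
      (show j ≤ Q.m by omega)
    have h5 := hB g1
    rw [g2, g3] at h5
    refine ⟨i * (Q.m + 1) + j, g1, i * n + σ, by rw [g4]; omega, by rw [g5]; omega, ?_⟩
    exact (sqL_op hp hD b5 ht (by omega)).symm
  · rintro ⟨a, ha, k, h1, h2, rfl⟩
    obtain ⟨a1, a2, a3⟩ := row_dat ha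
    have h5 := hB ha
    unfold sR at h1
    unfold eR at h2
    obtain ⟨σ, rfl⟩ : ∃ σ, k = a / (Q.m + 1) * n + σ := ⟨k - a / (Q.m + 1) * n, by omega⟩
    refine ⟨(⟨a / (Q.m + 1), a1⟩, ⟨a % (Q.m + 1), by omega⟩), σ, ?_, ?_, ?_⟩
    · show sW p n Q _ (a / (Q.m + 1)) (a % (Q.m + 1)) ≤ σ
      omega
    · show σ < eW p n Q _ (a / (Q.m + 1)) (a % (Q.m + 1))
      omega
    · exact sqL_op hp hD b5 ht (by omega)

include hp hD hQ hg hδ hδg hn in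
/-- **The squares at the ends of the rows are near the marks.** -/
theorem frame_ends :
    ends (fun k => qN p n (tB n Q) ((k + (l * n - tB n Q) : ℕ) : ZMod (l * n)))
      (fun k => uN p n (tB n Q) (k + (l * n - tB n Q))) (l * (Q.m + 1))
      (sR p n Q ⌊δ * n⌋₊) (eR p n Q ⌊δ * n⌋₊) ⊆ (hB p Q n (⌊δ * n⌋₊ + 4) : Set (ℤ × ℤ)) := by
  have hl : 0 < l := by have := hp.1; omega
  obtain ⟨-, -, -, -, b5⟩ := gn_big hQ hg hδg hn hl
  have ht := tB_lt (n := n) hQ b5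
  have c4 : 16 ≤ ⌊δ * n⌋₊ := Nat.le_floor (by push_cast; linarith)
  rintro v ⟨a, ha, h⟩
  obtain ⟨a1, a2, a3⟩ := row_dat ha
  have h5 := row_bds (p := p) hQ hg hδ hδg hn ha
  obtain ⟨-, -, c1, c2⟩ := ends_bd (p := p) hQ hg hδ hδg hn a1 a2
  have hs1 := (le_rnd ((n : ℤ) • p ((a / (Q.m + 1) : ℕ) : ZMod l)) (bsite p Q n)
    (⌊Q.θ (a / (Q.m + 1)) (a % (Q.m + 1)) * n⌋₊ + ⌊δ * n⌋₊)).2
  have hs2 := (le_rnd ((n : ℤ) • p ((a / (Q.m + 1) : ℕ) : ZMod l)) (bsite p Q n)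
    (⌊Q.θ (a / (Q.m + 1)) (a % (Q.m + 1) + 1) * n⌋₊ - ⌊δ * n⌋₊)).1
  change sW p n Q ⌊δ * n⌋₊ (a / (Q.m + 1)) (a % (Q.m + 1)) ≤ _ at hs1
  change _ ≤ eW p n Q ⌊δ * n⌋₊ (a / (Q.m + 1)) (a % (Q.m + 1)) at hs2
  rw [mem_coe, mem_hB]
  rcases h with h | h
  · refine ⟨(⟨a / (Q.m + 1), a1⟩, ⟨a % (Q.m + 1), by omega⟩), Bq_of ?_⟩
    have e1 : sR p n Q ⌊δ * n⌋₊ a - 1 = a / (Q.m + 1) * n +
        (sW p n Q ⌊δ * n⌋₊ (a / (Q.m + 1)) (a % (Q.m + 1)) - 1) := by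
      unfold sR
      omega
    have h6 := sqL_op hp hD b5 ht (i := a / (Q.m + 1))
      (σ := sW p n Q ⌊δ * n⌋₊ (a / (Q.m + 1)) (a % (Q.m + 1)) - 1) (by omega)
    rw [← e1] at h6
    have hv : v = op p n (a / (Q.m + 1))
        ((sW p n Q ⌊δ * n⌋₊ (a / (Q.m + 1)) (a % (Q.m + 1)) - 1 : ℕ) : ℤ) := h.trans h6
    have h7 := op_near (p := p) (n := n) (a / (Q.m + 1))
      ((sW p n Q ⌊δ * n⌋₊ (a / (Q.m + 1)) (a % (Q.m + 1)) - 1 : ℕ) : ℤ)
    have h8 := vp_same (p := p) (n := n) (a / (Q.m + 1))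
      ((sW p n Q ⌊δ * n⌋₊ (a / (Q.m + 1)) (a % (Q.m + 1)) - 1 : ℕ) : ℤ)
      (⌊Q.θ (a / (Q.m + 1)) (a % (Q.m + 1)) * n⌋₊ : ℤ)
    rw [abs_of_nonneg (by omega)] at h8
    rw [hv]
    show nm (_ - vp p n (a / (Q.m + 1)) (⌊Q.θ (a / (Q.m + 1)) (a % (Q.m + 1)) * n⌋₊ : ℤ)) < _
    have h9 := nm_tri (op p n (a / (Q.m + 1))
      ((sW p n Q ⌊δ * n⌋₊ (a / (Q.m + 1)) (a % (Q.m + 1)) - 1 : ℕ) : ℤ))
      (vp p n (a / (Q.m + 1))
      ((sW p n Q ⌊δ * n⌋₊ (a / (Q.m + 1)) (a % (Q.m + 1)) - 1 : ℕ) : ℤ))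
      (vp p n (a / (Q.m + 1)) (⌊Q.θ (a / (Q.m + 1)) (a % (Q.m + 1)) * n⌋₊ : ℤ))
    omega
  · obtain ⟨z, hz⟩ := next_mark (n := n) hp hQ a1 a2
    refine ⟨z, Bq_of ?_⟩
    have e1 : eR p n Q ⌊δ * n⌋₊ a = a / (Q.m + 1) * n +
        eW p n Q ⌊δ * n⌋₊ (a / (Q.m + 1)) (a % (Q.m + 1)) := rfl
    have h6 := sqL_op hp hD b5 ht (i := a / (Q.m + 1))
      (σ := eW p n Q ⌊δ * n⌋₊ (a / (Q.m + 1)) (a % (Q.m + 1))) (by omega)
    rw [← e1] at h6
    have hv : v = op p n (a / (Q.m + 1))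
        ((eW p n Q ⌊δ * n⌋₊ (a / (Q.m + 1)) (a % (Q.m + 1)) : ℕ) : ℤ) := h.trans h6
    have h7 := op_near (p := p) (n := n) (a / (Q.m + 1))
      ((eW p n Q ⌊δ * n⌋₊ (a / (Q.m + 1)) (a % (Q.m + 1)) : ℕ) : ℤ)
    have h8 := vp_same (p := p) (n := n) (a / (Q.m + 1))
      ((eW p n Q ⌊δ * n⌋₊ (a / (Q.m + 1)) (a % (Q.m + 1)) : ℕ) : ℤ)
      (⌊Q.θ (a / (Q.m + 1)) (a % (Q.m + 1) + 1) * n⌋₊ : ℤ)
    rw [abs_sub_comm, abs_of_nonneg (by omega)] at h8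
    rw [hv, hz]
    have h9 := nm_tri (op p n (a / (Q.m + 1))
      ((eW p n Q ⌊δ * n⌋₊ (a / (Q.m + 1)) (a % (Q.m + 1)) : ℕ) : ℤ))
      (vp p n (a / (Q.m + 1))
      ((eW p n Q ⌊δ * n⌋₊ (a / (Q.m + 1)) (a % (Q.m + 1)) : ℕ) : ℤ))
      (vp p n (a / (Q.m + 1)) (⌊Q.θ (a / (Q.m + 1)) (a % (Q.m + 1) + 1) * n⌋₊ : ℤ))
    omega

include hp hQ hg hδ hδg hn in
/-- **The steps of the rows**, base numbering. -/
theorem frame_inK {m : ℕ} : InK (l * n) (l * n - tB n Q) (l * (Q.m + 1))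
      (sR p n Q ⌊δ * n⌋₊) (eR p n Q ⌊δ * n⌋₊) m ↔
    ∃ x : Fin l × Fin (Q.m + 1), ∃ σ : ℕ, sW p n Q ⌊δ * n⌋₊ x.1 x.2 ≤ σ ∧
      σ < eW p n Q ⌊δ * n⌋₊ x.1 x.2 ∧ m = kOf l n (tB n Q) x.1 σ := by
  have hl : 0 < l := by have := hp.1; omega
  obtain ⟨-, -, -, -, b5⟩ := gn_big hQ hg hδg hn hl
  have ht := tB_lt (n := n) hQ b5
  have htl := t_le (l := l) ht hl
  have key : ∀ {i σ : ℕ}, i < l → σ < n →
      (i * n + σ + (l * n - tB n Q)) % (l * n) = kOf l n (tB n Q) i σ := by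
    intro i σ hi hσ
    have h1 : (i + 1) * n ≤ l * n := Nat.mul_le_mul_right n hi
    rw [add_mul, one_mul] at h1
    unfold kOf
    split_ifs with h
    · rw [show i * n + σ + (l * n - tB n Q) = i * n + σ - tB n Q + l * n by omega,
        Nat.add_mod_right, Nat.mod_eq_of_lt (by omega)]
    · rw [show i * n + σ + (l * n - tB n Q) = l * n + (i * n + σ) - tB n Q by omega,
        Nat.mod_eq_of_lt (by omega)]
  constructor
  · rintro ⟨k, ⟨a, ha, h1, h2⟩, rfl⟩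
    obtain ⟨a1, a2, a3⟩ := row_dat ha
    have h5 := row_bds (p := p) hQ hg hδ hδg hn ha
    unfold sR at h1
    unfold eR at h2
    obtain ⟨σ, rfl⟩ : ∃ σ, k = a / (Q.m + 1) * n + σ := ⟨k - a / (Q.m + 1) * n, by omega⟩
    refine ⟨(⟨a / (Q.m + 1), a1⟩, ⟨a % (Q.m + 1), by omega⟩), σ, ?_, ?_, ?_⟩
    · show sW p n Q _ (a / (Q.m + 1)) (a % (Q.m + 1)) ≤ σ
      omega
    · show σ < eW p n Q _ (a / (Q.m + 1)) (a % (Q.m + 1))
      omega
    · exact key a1 (by omega)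
  · rintro ⟨⟨⟨i, hi⟩, ⟨j, hj⟩⟩, σ, h1, h2, rfl⟩
    simp only at h1 h2 ⊢
    obtain ⟨g1, g2, g3⟩ := row_num (Q := Q) hi (show j ≤ Q.m by omega)
    obtain ⟨g4, g5⟩ := sR_num (p := p) (n := n) (Q := Q) (d := ⌊δ * n⌋₊) hi
      (show j ≤ Q.m by omega)
    have h5 := row_bds (p := p) hQ hg hδ hδg hn g1
    rw [g2, g3] at h5
    exact ⟨i * n + σ, ⟨i * (Q.m + 1) + j, g1, by rw [g4]; omega, by rw [g5]; omega⟩,
      key hi (by omega)⟩

include hp hD hQ hg hδ hδg hn in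
/-- **Exterior strands of the frame off the holes**: turning and exterior potential. -/
theorem frame_far {ω : Cfg} {x : Ed} (hx1 : tlv x ∈ uI (frows θ β p Q n ⌊δ * n⌋₊ bc))
    (hx2 : hdv x ∉ uI (frows θ β p Q n ⌊δ * n⌋₊ bc))
    (hx3 : hdv x ∉ hB p Q n (⌊δ * n⌋₊ + 4))
    (hr : Returns (nx ω) (bS (uI (frows θ β p Q n ⌊δ * n⌋₊ bc))) x)
    (hs : ∀ k < ret (nx ω) (bS (uI (frows θ β p Q n ⌊δ * n⌋₊ bc))) x,
      hdv ((nx ω)^[k] x) ∉ enl S₀ n)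
    (hx4 : tlv ((nx ω)^[ret (nx ω) (bS (uI (frows θ β p Q n ⌊δ * n⌋₊ bc))) x] x) ∉
      hB p Q n (⌊δ * n⌋₊ + 4)) :
    ∃ (a b : Fin l × Fin (Q.m + 1)) (σ τ : ℕ) (φ : ℤ × ℤ → ℤ) (sg : ℤ),
      sW p n Q ⌊δ * n⌋₊ a.1 a.2 ≤ σ ∧ σ < eW p n Q ⌊δ * n⌋₊ a.1 a.2 ∧
      sW p n Q ⌊δ * n⌋₊ b.1 b.2 ≤ τ ∧ τ < eW p n Q ⌊δ * n⌋₊ b.1 b.2 ∧
      kOf l n (tB n Q) a.1 σ ≠ kOf l n (tB n Q) b.1 τ ∧
      tlv x = op p n a.1 σ ∧
      P4 x = M4 (vp p n a.1 σ + dir (pdir p a.1 - 1)) ((pdir p a.1).val : ℕ) ∧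
      hdv ((nx ω)^[ret (nx ω) (bS (uI (frows θ β p Q n ⌊δ * n⌋₊ bc))) x] x) = op p n b.1 τ ∧
      P4 ((nx ω)^[ret (nx ω) (bS (uI (frows θ β p Q n ⌊δ * n⌋₊ bc))) x] x) =
        M4 (vp p n b.1 τ + dir (pdir p b.1 - 1)) ((pdir p b.1).val : ℕ) ∧
      ExtPot (enl S₀ n ∪ uI (frows θ β p Q n ⌊δ * n⌋₊ bc))
        (exc (uI (frows θ β p Q n ⌊δ * n⌋₊ bc)) ω x) sg φ ∧
      ∑ k ∈ range (ret (nx ω) (bS (uI (frows θ β p Q n ⌊δ * n⌋₊ bc))) x),
        trn ω ((nx ω)^[k] x) =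
          uN p n (tB n Q) (kOf l n (tB n Q) b.1 τ) - uN p n (tB n Q) (kOf l n (tB n Q) a.1 σ) +
          (if kOf l n (tB n Q) a.1 σ < kOf l n (tB n Q) b.1 τ then (if sg = 1 then 2 else -6)
            else (if sg = 1 then 6 else -2)) := by
  have hl : 0 < l := by have := hp.1; omega
  obtain ⟨-, -, -, -, b5⟩ := gn_big hQ hg hδg hn hl
  have ht := tB_lt (n := n) hQ b5
  have he := frame_ends hp hD hQ hg hδ hδg hn
  obtain ⟨i, j, φ, sg, h1, h2, h3, h4, h5, h6, h7, h8, h9, h10, h11⟩ :=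
    far_turn (c := l * n - tB n Q) (isPolygon_qN b5 hp (tB n Q)) (bd_qN b5 hp hD ht)
      (Nat.sub_le _ _) (frame_rws hp hD hQ hg hδ hδg hn)
      (frame_sq (θ := θ) (β := β) (bc := bc) hp hD hQ hg hδ hδg hn) hx1 hx2
      (fun h => hx3 (he h)) hr hs (fun h => hx4 (he h))
  obtain ⟨a, σ, a1, a2, rfl⟩ := (frame_inK hp hQ hg hδ hδg hn).1 h4
  obtain ⟨b, τ, c1, c2, rfl⟩ := (frame_inK hp hQ hg hδ hδg hn).1 h5
  have en : ∀ y : Fin l × Fin (Q.m + 1), eW p n Q ⌊δ * n⌋₊ y.1 y.2 < n := fun y => by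
    have h1 := (rows_marks (p := p) hQ hg hδ hδg hn).hi y
    have h2 : 16 ≤ ⌊δ * n⌋₊ := Nat.le_floor (by push_cast; linarith)
    omega
  have hσ : σ < n := a2.trans (en a)
  have hτ : τ < n := c2.trans (en b)
  have key : ∀ {i σ : ℕ}, i < l → σ < n →
      (∀ v, v = sqL (qN p n (tB n Q) ((kOf l n (tB n Q) i σ : ℕ) : ZMod (l * n)))
        (uN p n (tB n Q) (kOf l n (tB n Q) i σ) - 1) → v = op p n i σ) ∧
      M4 (qN p n (tB n Q) ((kOf l n (tB n Q) i σ : ℕ) : ZMod (l * n)) +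
        vec (uN p n (tB n Q) (kOf l n (tB n Q) i σ) - 1)) (uN p n (tB n Q)
          (kOf l n (tB n Q) i σ)) = M4 (vp p n i σ + dir (pdir p i - 1)) ((pdir p i).val : ℕ) := by
    intro i σ hi hσ
    have e1 := uN_mod hp hD ht hi hσ
    rw [qN_kOf hi ht hσ]
    refine ⟨fun v hv => ?_, ?_⟩
    · rw [hv]
      show _ = face (vp p n i σ) (pdir p i - 1)
      rw [face_pred]
      exact sqL_congr (by omega)
    · rw [vec_pred e1]
      exact M4_congr (by omega)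
  refine ⟨a, b, σ, τ, φ, sg, a1, a2, c1, c2, h3, ?_, ?_, ?_, ?_, h10, h11⟩
  · exact (key a.1.2 hσ).1 _ h6
  · rw [h7]; exact (key a.1.2 hσ).2
  · exact (key b.1.2 hτ).1 _ h8
  · rw [h9]; exact (key b.1.2 hτ).2

end rows

end Vale.Agent.P167.Enl
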