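import Vale.Agent.P167.H871.Q.ExtW
import Vale.Agent.P167.H592.U.Rws

/-!
# P167, general `q`: the frame as a family of rows in the sense of `H871.Q.Fam`
-/

namespace Vale.Agent.P167.Enl

open Finset
open Vale.Agent.P167.Top
open Vale.Agent.P167.E6 (IsPolygon Encloses dir face)
open Vale.Agent.P167.H825 (enl pdir ptau Marks FlowIn)
open Vale.Agent.P167.H825.Q (Row Bc frow frow_Φ frow_τ osq stΦ stτ)
open Vale.Agent.P167.H680.T (rowC uI frows)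
open Vale.Agent.P167.H199 (Gap)
open Vale.Agent.P167.H398.Q (hB)
open Vale.Agent.P167.H871 (Bd sqL sqL_congr face_pred)
open Vale.Agent.P167.H871.Q (Fam endK)

variable {l : ℕ} {p : ZMod l → ℤ × ℤ} {n : ℕ} {S₀ : Finset (ℤ × ℤ)} {Q : Marks} {bc : Bc}
  {d : ℕ} {θ β : ℝ}

/-- The square outside of a step, base numbering. -/
theorem sqL_kOf (hp : IsPolygon p) (hD : Encloses p S₀) {t : ℕ} (ht : t < n) {i σ : ℕ} (hi : i < l)
    (hσ : σ < n) : sqL (qN p n t ((kOf l n t i σ : ℕ) : ZMod (l * n)))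
      (uN p n t (kOf l n t i σ) - 1) = op p n i σ := by
  have e1 := uN_mod hp hD ht hi hσ
  rw [qN_kOf hi ht hσ]
  show _ = face (vp p n i σ) (pdir p i - 1)
  rw [face_pred]
  exact sqL_congr (by omega)

section rows

variable (hp : IsPolygon p) (hD : Encloses p S₀) (hQ : Q.Ok) {g δ : ℝ} (hg : Gap Q l g)
  (hδ : 0 < δ) (hδg : 4 * δ ≤ g) (hn : 16 ≤ δ * n)

include hp hQ hg hδ hδg hn in
/-- The rows are disjoint. -/
theorem frows_disj {x y : Fin l × Fin (Q.m + 1)} {v : ℤ × ℤ}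
    (hx : v ∈ (frows θ β p Q n ⌊δ * n⌋₊ bc x).I) (hy : v ∈ (frows θ β p Q n ⌊δ * n⌋₊ bc y).I) :
    x = y := by
  have hrow := rows_marks (p := p) hQ hg hδ hδg hn
  have hd : 16 ≤ ⌊δ * n⌋₊ := Nat.le_floor (by push_cast; linarith)
  change v ∈ (frow θ β p Q n ⌊δ * n⌋₊ bc x.1 x.2).I at hx
  change v ∈ (frow θ β p Q n ⌊δ * n⌋₊ bc y.1 y.2).I at hy
  rw [frow_I] at hx hy
  obtain ⟨σ, h1, h2, h3⟩ := mem_rowP.1 hx
  obtain ⟨τ, h4, h5, h6⟩ := mem_rowP.1 hy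
  have a1 := hrow.lo x
  have a2 := hrow.hi x
  have a3 := hrow.hi y
  obtain ⟨k1, k2⟩ := op_inj hp x.1.2 y.1.2 (σ := (σ : ℤ)) (σ' := (τ : ℤ)) (by omega) (by omega)
    (by omega) (by omega) (h3.symm.trans h6)
  by_contra hne
  rcases hrow.dis x y hne k1 with h | h <;> omega

include hp hD hQ hg hδ hδg hn in
/-- **The frame is a family of rows.** -/
theorem frame_fam (hb : bc.Ok l Q) : Fam θ β (frows θ β p Q n ⌊δ * n⌋₊ bc) (qN p n (tB n Q))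
    (enl S₀ n) (uN p n (tB n Q)) (bc.ka l n (tB n Q)) (l * n - tB n Q) (l * (Q.m + 1))
    (sR p n Q ⌊δ * n⌋₊) (eR p n Q ⌊δ * n⌋₊) := by
  have hl : 0 < l := by have := hp.1; omega
  obtain ⟨-, -, -, b4, b5⟩ := gn_big hQ hg hδg hn hl
  have ht := tB_lt (n := n) hQ b5
  refine ⟨isPolygon_qN b5 hp _, encloses_qN b5 hp hD _, bd_qN b5 hp hD ht, Nat.sub_le _ _,
    frame_rws hp hD hQ hg hδ hδg hn, frame_sq hp hD hQ hg hδ hδg hn, fun x y v hx hy =>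
    frows_disj hp hQ hg hδ hδg hn hx hy, ?_⟩
  intro z hz hK
  obtain ⟨y, σ, h1, h2, rfl⟩ := (frame_inK hp hQ hg hδ hδg hn).1 hK
  have h3 : eW p n Q ⌊δ * n⌋₊ y.1 y.2 < n := by
    have h1 := (rows_marks (p := p) hQ hg hδ hδg hn).hi y
    omega
  rw [sqL_kOf hp hD ht y.1.2 (by omega)]
  refine ⟨y, ?_, ?_, ?_⟩
  · show op p n y.1 σ ∈ (frow θ β p Q n ⌊δ * n⌋₊ bc y.1 y.2).I
    rw [frow_I]
    exact mem_rowP.2 ⟨σ, h1, h2, rfl⟩
  · exact frow_Φ (θ := θ) (β := β) hp hD hQ hb (by omega : 1 ≤ ⌊δ * n⌋₊) y.1.isLt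
      (Nat.lt_succ_iff.1 y.2.isLt) h1 h2
  · exact frow_τ (θ := θ) (β := β) hp hD hQ hb (by omega : 1 ≤ ⌊δ * n⌋₊) y.1.isLt
      (Nat.lt_succ_iff.1 y.2.isLt) h1 h2

include hp hD hQ hg hδ hδg hn in
/-- The squares before and after the rows are near the marks. -/
theorem frame_endK : endK (qN p n (tB n Q)) (uN p n (tB n Q)) (l * n - tB n Q) (l * (Q.m + 1))
    (sR p n Q ⌊δ * n⌋₊) (eR p n Q ⌊δ * n⌋₊) ⊆ (hB p Q n (⌊δ * n⌋₊ + 4) : Set (ℤ × ℤ)) :=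
  frame_ends hp hD hQ hg hδ hδg hn

include hp hD hQ hg hδ hδg hn in
theorem endK_hB {R : ℤ} (hR : (⌊δ * n⌋₊ : ℤ) + 4 ≤ R) {v : ℤ × ℤ} (hv : v ∉ hB p Q n R) :
    v ∉ endK (qN p n (tB n Q)) (uN p n (tB n Q)) (l * n - tB n Q) (l * (Q.m + 1))
      (sR p n Q ⌊δ * n⌋₊) (eR p n Q ⌊δ * n⌋₊) := by
  intro h
  have h1 := frame_endK hp hD hQ hg hδ hδg hn h
  rw [mem_coe, mem_hB] at h1
  obtain ⟨x, hx⟩ := h1
  refine hv (mem_hB.2 ⟨x, ?_⟩)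
  unfold FK.Bq at hx ⊢
  rw [mem_product, mem_Ico, mem_Ico] at hx ⊢
  omega

end rows

end Vale.Agent.P167.Enl
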