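import Vale.Agent.P167.H592.U.Fam
import Vale.Agent.P167.QX.S3
import Vale.Agent.P167.H662.X.ExtC
import Vale.Agent.P167.H871.Q.Alt

/-!
# P167, general `q`, START: instances for the frame (block L1S)

`nat_face`: near and far faces of the rows. `sqm_hB`: squares beyond the ends of the rows. `frmG`,
`frmV`: the frame in the sense of `QX.FrmG`, `QX.FrmV`. `extConn_frame`: the outside of the domain and
the rows is connected.
-/

namespace Vale.Agent.P167.Enl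

open Finset
open Vale.Agent.P167.Top
open Vale.Agent.P167.E6 (IsPolygon Encloses dir face)
open Vale.Agent.P167.BR (sites mem_sites be)
open Vale.Agent.P167.XDL (bS mem_bS)
open Vale.Agent.P167.H825 (enl pdir ptau Marks FlowIn)
open Vale.Agent.P167.H825.Q (Row Bc frow srow srow_L srow_sq osq PT PT_off PT_hd PT_tl RowsP)
open Vale.Agent.P167.H680.T (rowC uI frows)
open Vale.Agent.P167.H662 (hsite)
open Vale.Agent.P167.H199 (Gap)
open Vale.Agent.P167.H398.Q (hB)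
open Vale.Agent.P167.QX (FrmG FrmV ExtConn Cor)
open Vale.Agent.P167.H871.Q (sqm w0 w1 exists_bumps)

variable {l : ℕ} {p : ZMod l → ℤ × ℤ} {n : ℕ} {S₀ : Finset (ℤ × ℤ)} {Q : Marks} {bc : Bc}
  {d : ℕ} {θ β : ℝ}

/-! ### faces of rows -/

/-- The square beyond the side `b` of the square `k` of a row. -/
def bq (R : Row) (b : Bool) (k : ℕ) : ℤ × ℤ :=
  if R.o then (R.x.1 + k, R.x.2 + if b then 1 else -1) else (R.x.1 + (if b then 1 else -1), R.x.2 + k)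

theorem two_face (R : Row) (b : Bool) (k : ℕ) : Two (H945.Q.face R b k) (R.sq k) (bq R b k) := by
  unfold H945.Q.face Row.sq bq
  by_cases ho : R.o = true
  · simp only [ho, if_true]
    cases b
    · have := (two_inr (R.x.1 + k, R.x.2 - 1)).symm
      simpa [sub_eq_add_neg] using this
    · simpa using two_inr (R.x.1 + k, R.x.2)
  · simp only [ho]
    cases b
    · have := (two_inl (R.x.1 - 1, R.x.2 + k)).symm
      simpa [sub_eq_add_neg] using this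
    · simpa using two_inl (R.x.1, R.x.2 + k)

/-- The near face of a row outside of a side in the direction `r`. -/
def nfc (r : Fin 4) : Bool := decide (r = 0 ∨ r = 3)

/-- The square beyond the near face. -/
theorem bq_near (z : ℤ × ℤ) (r : Fin 4) {s e jp σ : ℕ} (F T : ℕ → ℝ) (h1 : s ≤ σ) (h2 : σ < e) :
    bq (srow z r s e jp F T) (nfc r) (idx r s e σ) = face (vz z r σ) r ∧
      bq (srow z r s e jp F T) (!nfc r) (idx r s e σ) = oz z r σ + dir (r - 1) := by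
  obtain ⟨h0, h1', h2', h3⟩ := oz_eq z σ
  obtain ⟨k0, k1, k2, k3⟩ := vz_eq z σ
  rcases fin4_cases r with rfl | rfl | rfl | rfl
  · rw [h0, k0, m01, face0, dir3]
    simp [bq, srow, nfc, idx]
    omega
  · rw [h1', k1, m11, face1, dir0]
    simp [bq, srow, nfc, idx]
    omega
  · rw [h2', k2, m21, face2, dir1]
    simp [bq, srow, nfc, idx]
    omega
  · rw [h3, k3, m31, face3, dir2]
    simp [bq, srow, nfc, idx]
    omega

/-- The square two steps outside of a side is not in the domain. -/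
theorem op2_out (hp : IsPolygon p) (hD : Encloses p S₀) {i σ : ℕ} (hi : i < l)
    (k1 : 3 ≤ σ) (k2 : σ + 3 ≤ n) : op p n i σ + dir (pdir p i - 1) ∉ enl S₀ n := by
  intro h
  have h1 : Two (BR.ce (vp p n i σ + dir (pdir p i - 1)) (pdir p i)) (op p n i σ)
    (op p n i σ + dir (pdir p i - 1)) := two_far _ _ _
  have h2 : BR.ce (vp p n i σ + dir (pdir p i - 1)) (pdir p i) ∈ bS (enl S₀ n) :=
    mem_bS_two.2 ⟨_, _, h1.symm, h, op_out hp hD hi (by omega)⟩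
  have h3 := edge_op hp hD hi (σ := (σ : ℤ)) (by omega) (by omega) h2 h1
  rw [h3] at h1
  have h4 : Two (BR.ce (vp p n i σ) (pdir p i)) (op p n i σ) (face (vp p n i σ) (pdir p i)) :=
    two_near _ _ _
  have h5 : op p n i σ + dir (pdir p i - 1) = face (vp p n i σ) (pdir p i) := by
    have a1 := ip_in hp hD hi (show σ < n by omega)
    have a2 := op_out hp hD hi (show σ < n by omega)
    rcases h1 with ⟨b1, b2⟩ | ⟨b1, b2⟩ <;> rcases h4 with ⟨b3, b4⟩ | ⟨b3, b4⟩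
    · exact b2.symm.trans b4
    · rw [← b3, b1] at a1; exact absurd a1 a2
    · rw [← b4, b2] at a1; exact absurd a1 a2
    · exact b1.symm.trans b3
  have h6 : oz ((n : ℤ) • p (i : ℕ)) (pdir p i) σ + dir (pdir p i - 1) =
    face (vz ((n : ℤ) • p (i : ℕ)) (pdir p i) σ) (pdir p i) := h5
  obtain ⟨h0, h1', h2', h3'⟩ := oz_eq ((n : ℤ) • p (i : ℕ)) σ
  obtain ⟨k0, k1, k2, k3⟩ := vz_eq ((n : ℤ) • p (i : ℕ)) σ
  rcases fin4_cases (pdir p i) with hr | hr | hr | hr <;> rw [hr] at h6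
  · rw [h0, k0, m01, face0, dir3, Prod.ext_iff] at h6; simp at h6; omega
  · rw [h1', k1, m11, face1, dir0, Prod.ext_iff] at h6; simp at h6; omega
  · rw [h2', k2, m21, face2, dir1, Prod.ext_iff] at h6; simp at h6; omega
  · rw [h3', k3, m31, face3, dir2, Prod.ext_iff] at h6; simp at h6; omega

/-- Squares of an edge. -/
theorem Two.of {g : Ed} {v w x : ℤ × ℤ} (h : Two g v w) (hx : x = hdv g ∨ x = tlv g) :
    x = v ∨ x = w := by
  rcases h with ⟨h1, h2⟩ | ⟨h1, h2⟩ <;> rcases hx with hx | hx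
  · exact Or.inl (hx.trans h1)
  · exact Or.inr (hx.trans h2)
  · exact Or.inr (hx.trans h1)
  · exact Or.inl (hx.trans h2)

section frame

variable (hp : IsPolygon p) (hD : Encloses p S₀) (hQ : Q.Ok) {g δ : ℝ} (hg : Gap Q l g)
  (hδ : 0 < δ) (hδg : 4 * δ ≤ g) (hn : 16 ≤ δ * n)

include hp hD hQ hg hδ hδg hn in
/-- The squares beyond the faces of the rows. -/
theorem bq_frows (x : Fin l × Fin (Q.m + 1)) {k : ℕ} (hk : k < (frows θ β p Q n ⌊δ * n⌋₊ bc x).L) :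
    bq (frows θ β p Q n ⌊δ * n⌋₊ bc x) (nfc (pdir p x.1)) k ∈ enl S₀ n ∧
      bq (frows θ β p Q n ⌊δ * n⌋₊ bc x) (!nfc (pdir p x.1)) k ∉ enl S₀ n := by
  have hrow := rows_marks (p := p) hQ hg hδ hδg hn
  have hd : 16 ≤ ⌊δ * n⌋₊ := Nat.le_floor (by push_cast; linarith)
  have a1 := hrow.lo x
  have a2 := hrow.hi x
  change k < (frow θ β p Q n ⌊δ * n⌋₊ bc x.1 x.2).L at hk
  have hL : (frow θ β p Q n ⌊δ * n⌋₊ bc x.1 x.2).L =
      eW p n Q ⌊δ * n⌋₊ x.1 x.2 - sW p n Q ⌊δ * n⌋₊ x.1 x.2 := srow_L _ _ _ _ _ _ _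
  rw [hL] at hk
  obtain ⟨σ, h1, h2, rfl⟩ := exists_idx (pdir p x.1) hk
  have h3 := bq_near ((n : ℤ) • p (x.1 : ℕ)) (pdir p x.1) (jp := if (x.1 : ℕ) = 0 then tB n Q
    else bc.tn n) (fun σ => H825.Q.stΦ θ β (uN p n (tB n Q)) (bc.ka l n (tB n Q))
      (kOf l n (tB n Q) x.1 σ))
    (fun σ => H825.Q.stτ (bc.ka l n (tB n Q)) (kOf l n (tB n Q) x.1 σ)) h1 h2
  have e1 : bq (frows θ β p Q n ⌊δ * n⌋₊ bc x) (nfc (pdir p x.1))
      (idx (pdir p x.1) (sW p n Q ⌊δ * n⌋₊ x.1 x.2) (eW p n Q ⌊δ * n⌋₊ x.1 x.2) σ) =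
      face (vp p n x.1 σ) (pdir p x.1) := h3.1
  have e2 : bq (frows θ β p Q n ⌊δ * n⌋₊ bc x) (!nfc (pdir p x.1))
      (idx (pdir p x.1) (sW p n Q ⌊δ * n⌋₊ x.1 x.2) (eW p n Q ⌊δ * n⌋₊ x.1 x.2) σ) =
      op p n x.1 σ + dir (pdir p x.1 - 1) := h3.2
  rw [e1, e2]
  exact ⟨ip_in hp hD x.1.2 (by omega), op2_out hp hD x.1.2 (by omega) (by omega)⟩

include hp hD hQ hg hδ hδg hn in
/-- **(i)** Near and far faces of the rows. -/
theorem nat_face (x : Fin l × Fin (Q.m + 1)) : ∃ b : Bool,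
    ∀ k < (frows θ β p Q n ⌊δ * n⌋₊ bc x).L,
      (∀ v, (v = hdv (H945.Q.face (frows θ β p Q n ⌊δ * n⌋₊ bc x) b k) ∨
        v = tlv (H945.Q.face (frows θ β p Q n ⌊δ * n⌋₊ bc x) b k)) →
        v ∉ (frows θ β p Q n ⌊δ * n⌋₊ bc x).I → v ∈ enl S₀ n) ∧
      (∀ v, (v = hdv (H945.Q.face (frows θ β p Q n ⌊δ * n⌋₊ bc x) (!b) k) ∨
        v = tlv (H945.Q.face (frows θ β p Q n ⌊δ * n⌋₊ bc x) (!b) k)) → v ∉ enl S₀ n) := by
  refine ⟨nfc (pdir p x.1), fun k hk => ?_⟩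
  obtain ⟨h1, h2⟩ := bq_frows (θ := θ) (β := β) (bc := bc) hp hD hQ hg hδ hδg hn x hk
  have hI : (frows θ β p Q n ⌊δ * n⌋₊ bc x).sq k ∈ (frows θ β p Q n ⌊δ * n⌋₊ bc x).I :=
    mem_image.2 ⟨k, mem_range.2 hk, rfl⟩
  constructor
  · intro v hv hvI
    rcases (two_face _ _ _).of hv with h | h
    · rw [h] at hvI; exact absurd hI hvI
    · rw [h]; exact h1
  · intro v hv
    rcases (two_face _ _ _).of hv with h | h
    · rw [h]
      have h3 := frmQ_disj (n := n) hp hD hQ hg hδ hδg hn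
      rw [Finset.disjoint_left] at h3
      intro h4
      refine h3 h4 ?_
      rw [← uI_frows (θ := θ) (β := β) (bc := bc)]
      exact H680.T.mem_uI.2 ⟨x, hI⟩
    · rw [h]; exact h2

include hp hQ hg hδ hδg hn in
/-- The squares before and after a row are near marks. -/
theorem op_ends (x : Fin l × Fin (Q.m + 1)) :
    op p n x.1 ((sW p n Q ⌊δ * n⌋₊ x.1 x.2 : ℤ) - 1) ∈ hB p Q n (⌊δ * n⌋₊ + 4) ∧
      op p n x.1 (eW p n Q ⌊δ * n⌋₊ x.1 x.2 : ℤ) ∈ hB p Q n (⌊δ * n⌋₊ + 4) := by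
  have c4 : 16 ≤ ⌊δ * n⌋₊ := Nat.le_floor (by push_cast; linarith)
  have hx2 := x.2.2
  obtain ⟨-, -, c1, c2⟩ := ends_bd (p := p) hQ hg hδ hδg hn x.1.2 (j := x.2) (by omega)
  have hs1 := (le_rnd ((n : ℤ) • p (x.1 : ℕ)) (H825.bsite p Q n)
    (⌊Q.θ x.1 x.2 * n⌋₊ + ⌊δ * n⌋₊)).2
  have hs2 := (le_rnd ((n : ℤ) • p (x.1 : ℕ)) (H825.bsite p Q n)
    (⌊Q.θ x.1 (x.2 + 1) * n⌋₊ - ⌊δ * n⌋₊)).1
  change sW p n Q ⌊δ * n⌋₊ x.1 x.2 ≤ _ at hs1
  change _ ≤ eW p n Q ⌊δ * n⌋₊ x.1 x.2 at hs2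
  have key : ∀ (σ τ : ℤ), nm (op p n x.1 σ - vp p n x.1 τ) ≤ |σ - τ| + 1 := by
    intro σ τ
    have h1 := nm_tri (op p n x.1 σ) (vp p n x.1 σ) (vp p n x.1 τ)
    have h2 := op_near (p := p) (n := n) x.1 σ
    rw [vp_same] at h1
    omega
  constructor
  · refine mem_hB.2 ⟨x, Bq_of ?_⟩
    have h7 := key ((sW p n Q ⌊δ * n⌋₊ x.1 x.2 : ℤ) - 1) (⌊Q.θ x.1 x.2 * n⌋₊ : ℤ)
    rw [abs_of_nonneg (by omega)] at h7
    change nm (_ - hsite p Q n x) ≤ _ at h7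
    omega
  · obtain ⟨z, hz⟩ := next_mark (n := n) (p := p) hp hQ x.1.2 (j := x.2) (by omega)
    refine mem_hB.2 ⟨z, Bq_of ?_⟩
    have h7 := key (eW p n Q ⌊δ * n⌋₊ x.1 x.2 : ℤ) (⌊Q.θ x.1 (x.2 + 1) * n⌋₊ : ℤ)
    rw [abs_sub_comm, abs_of_nonneg (by omega)] at h7
    rw [hz]
    omega

include hp hQ hg hδ hδg hn in
/-- **(ii)** The squares beyond the ends of the rows are near marks. -/
theorem sqm_hB (x : Fin l × Fin (Q.m + 1)) :
    sqm (frows θ β p Q n ⌊δ * n⌋₊ bc x) (-1) ∈ hB p Q n (⌊δ * n⌋₊ + 4) ∧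
      sqm (frows θ β p Q n ⌊δ * n⌋₊ bc x) (frows θ β p Q n ⌊δ * n⌋₊ bc x).L ∈
        hB p Q n (⌊δ * n⌋₊ + 4) := by
  obtain ⟨h1, h2⟩ := op_ends hp hQ hg hδ hδg hn x
  have hse : sW p n Q ⌊δ * n⌋₊ x.1 x.2 < eW p n Q ⌊δ * n⌋₊ x.1 x.2 :=
    (rb_of (p := p) hQ hg hδ hδg hn x.1.2 (j := x.2) (by omega)).se
  have key : ∀ (z : ℤ × ℤ) (r : Fin 4) (s e jp : ℕ) (F T : ℕ → ℝ), s < e →
      (sqm (srow z r s e jp F T) (-1) = oz z r ((s : ℤ) - 1) ∧
        sqm (srow z r s e jp F T) (srow z r s e jp F T).L = oz z r e) ∨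
      (sqm (srow z r s e jp F T) (-1) = oz z r e ∧
        sqm (srow z r s e jp F T) (srow z r s e jp F T).L = oz z r ((s : ℤ) - 1)) := by
    intro z r s e jp F T hse
    obtain ⟨h0, h1', h2', h3⟩ := oz_eq z ((s : ℤ) - 1)
    obtain ⟨k0, k1, k2, k3⟩ := oz_eq z e
    rcases fin4_cases r with rfl | rfl | rfl | rfl
    · rw [h0, k0]; left; simp [sqm, srow]; omega
    · rw [h1', k1]; left; simp [sqm, srow]; omega
    · rw [h2', k2]; right; simp [sqm, srow]; omega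
    · rw [h3, k3]; right; simp [sqm, srow]; omega
  have h3 := key ((n : ℤ) • p (x.1 : ℕ)) (pdir p x.1) _ _ (if (x.1 : ℕ) = 0 then tB n Q
    else bc.tn n) (fun σ => H825.Q.stΦ θ β (uN p n (tB n Q)) (bc.ka l n (tB n Q))
      (kOf l n (tB n Q) x.1 σ))
    (fun σ => H825.Q.stτ (bc.ka l n (tB n Q)) (kOf l n (tB n Q) x.1 σ)) hse
  change (sqm (frows θ β p Q n ⌊δ * n⌋₊ bc x) (-1) = op p n x.1 _ ∧
    sqm (frows θ β p Q n ⌊δ * n⌋₊ bc x) (frows θ β p Q n ⌊δ * n⌋₊ bc x).L = op p n x.1 _) ∨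
    (sqm (frows θ β p Q n ⌊δ * n⌋₊ bc x) (-1) = op p n x.1 _ ∧
    sqm (frows θ β p Q n ⌊δ * n⌋₊ bc x) (frows θ β p Q n ⌊δ * n⌋₊ bc x).L = op p n x.1 _) at h3
  rcases h3 with ⟨h4, h5⟩ | ⟨h4, h5⟩
  · rw [h4, h5]; exact ⟨h1, h2⟩
  · rw [h4, h5]; exact ⟨h2, h1⟩

include hp hQ hg hδ hδg hn in
theorem w_hB (x : Fin l × Fin (Q.m + 1)) (b : Bool) :
    w0 (frows θ β p Q n ⌊δ * n⌋₊ bc x) b ∈ hB p Q n (⌊δ * n⌋₊ + 4) ∧
      w1 (frows θ β p Q n ⌊δ * n⌋₊ bc x) b ∈ hB p Q n (⌊δ * n⌋₊ + 4) := by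
  obtain ⟨h1, h2⟩ := sqm_hB (θ := θ) (β := β) (bc := bc) hp hQ hg hδ hδg hn x
  unfold w0 w1
  split_ifs
  · exact ⟨h2, h1⟩
  · exact ⟨h1, h2⟩

/-! ### instances -/

/-- A square with a corner is a face of the corner. -/
theorem cor_face {z v : ℤ × ℤ} (h : Cor z v) : ∃ r, face z r = v := by
  obtain ⟨z1, z2⟩ := z
  obtain ⟨v1, v2⟩ := v
  obtain ⟨h1, h2⟩ := h
  simp only at h1 h2
  rcases h1 with rfl | rfl <;> rcases h2 with rfl | rfl
  · exact ⟨0, face0 _⟩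
  · exact ⟨3, face3 _⟩
  · exact ⟨1, face1 _⟩
  · exact ⟨2, face2 _⟩

include hp hD hQ hg hδ hδg hn in
/-- **The frame covers the boundary up to the boxes of the holes.** -/
theorem frmG : FrmG (enl S₀ n) (uI (frows θ β p Q n ⌊δ * n⌋₊ bc)) (hB p Q n (⌊δ * n⌋₊ + 4)) where
  disj := by
    rw [uI_frows]
    exact frmQ_disj hp hD hQ hg hδ hδg hn
  cov v hv z hz h := by
    obtain ⟨r, hr⟩ := cor_face h
    have h1 := cl_cov (n := n) hp hD hQ hg hδg hn hv hz hr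
    rw [mem_union] at h1
    rw [uI_frows]
    rcases h1 with h1 | h1
    · exact Or.inl h1
    · exact Or.inr (clH_sub h1)

include hp hD hQ hg hδ hδg hn in
/-- **The phases of the frame.** -/
theorem frmV (hb : bc.Ok l Q) : FrmV θ β (qN p n (tB n Q)) (enl S₀ n)
    (uI (frows θ β p Q n ⌊δ * n⌋₊ bc)) (uN p n (tB n Q)) (bc.ka l n (tB n Q))
    (rowC θ (frows θ β p Q n ⌊δ * n⌋₊ bc) 0).ph := by
  have hrow : RowsP p Q n ⌊δ * n⌋₊ (⌊δ * n⌋₊ - 1) := rows_marks (p := p) hQ hg hδ hδg hn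
  have hd : 16 ≤ ⌊δ * n⌋₊ := Nat.le_floor (by push_cast; linarith)
  have hn' : 0 < n := by
    rcases Nat.eq_zero_or_pos n with h | h
    · rw [h] at hn; norm_num at hn
    · exact h
  rw [uI_frows]
  refine ⟨frmQ_disj hp hD hQ hg hδ hδg hn, fun e he b => ?_, fun k hk h1 h2 => ?_,
    fun k hk h1 h2 => ?_⟩
  · exact PT_off (Zr := fun _ _ => 0) hrow hp (by omega) he b
  · have := PT_hd (θ := θ) (β := β) (Zr := fun _ _ => 0) hrow hp hD hQ hb (by omega) (by omega)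
      hn' hk h1 h2
    rw [add_zero] at this
    exact this
  · have := PT_tl (θ := θ) (β := β) (Zr := fun _ _ => 0) hrow hp hD hQ hb (by omega) (by omega)
      hn' hk h1 h2
    rw [add_zero] at this
    exact this

include hp hD hQ hg hδ hδg hn in
/-- **The outside of the domain and the rows is connected.** -/
theorem extConn_frame : ExtConn (enl S₀ n ∪ uI (frows θ β p Q n ⌊δ * n⌋₊ bc)) := by
  have hl : 0 < l := by have := hp.1; omega
  obtain ⟨-, -, -, -, b5⟩ := gn_big hQ hg hδg hn hl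
  obtain ⟨n', P', u', ι, g1, g2, g3, -⟩ := exists_bumps (frame_rws hp hD hQ hg hδ hδg hn)
  rw [← frame_sq (θ := θ) (β := β) (bc := bc) hp hD hQ hg hδ hδg hn, ← coe_union] at g1 g2
  have := Nat.mul_pos hl b5
  exact H662.X.extConn_bd g1 g2 (by omega)

end frame

end Vale.Agent.P167.Enl
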