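import Vale.Agent.P167.H871.Q.Far

/-!
# P167, general `q`, L2S: the sides and the sites of the edges at a row
-/

namespace Vale.Agent.P167.H871.Q

open Finset
open Vale.Agent.P167.Top

/-- The midpoint of the near side. -/
theorem near_mid (a : ℤ × ℤ) (w : ℤ) :
    M4 a w = (4 * (sqL a (w - 1)).1 + 2 * dx (w + 1), 4 * (sqL a (w - 1)).2 + 2 * dy (w + 1)) := by
  rw [M4_eq]
  unfold sqL
  rcases head_cases w with ⟨a1, b, c⟩ | ⟨a1, b, c⟩ | ⟨a1, b, c⟩ | ⟨a1, b, c⟩ <;>
    rcases head_cases (w + 1) with ⟨a', b', c'⟩ | ⟨a', b', c'⟩ | ⟨a', b', c'⟩ | ⟨a', b', c'⟩ <;>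
    first
    | (exfalso; omega)
    | (rw [b, c, b', c']; simp only [Prod.mk.injEq]; split_ifs <;> omega)

/-- Opposite directions. -/
theorem dxy_opp {a b : ℤ} (h : (a - b - 2) % 4 = 0) : dx a = - dx b ∧ dy a = - dy b := by
  rcases head_cases a with ⟨x, y, z⟩ | ⟨x, y, z⟩ | ⟨x, y, z⟩ | ⟨x, y, z⟩ <;>
    rcases head_cases b with ⟨x', y', z'⟩ | ⟨x', y', z'⟩ | ⟨x', y', z'⟩ | ⟨x', y', z'⟩ <;>
    rw [y, z, y', z'] <;> constructor <;> omega

variable {ω : Cfg} {x : Ed}

/-- The sides of an edge which enters the square outside of a step. -/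
theorem side_in {a : ℤ × ℤ} {w : ℤ} (hx : hdv x = sqL a (w - 1)) :
    ((hd4 x - w + 1) % 4 = 0 → P4 x = M4 a w) ∧
      ((hd4 x - w - 1) % 4 = 0 → P4 x = M4 (a + vec (w - 1)) w) := by
  rw [P4_hdv, hx, near_mid a w, far_mid]
  constructor
  · intro h
    obtain ⟨e1, e2⟩ := dxy_opp (a := hd4 x) (b := w + 1) (by omega)
    rw [e1, e2]
    ext <;> simp
  · intro h
    obtain ⟨e1, e2⟩ := dxy_opp (a := hd4 x) (b := w - 1) (by omega)
    rw [e1, e2]
    ext <;> simp

/-- The sides of an edge which leaves the square outside of a step. -/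
theorem side_out {a : ℤ × ℤ} {w : ℤ} (hx : tlv x = sqL a (w - 1)) :
    ((hd4 x - w - 1) % 4 = 0 → P4 x = M4 a w) ∧
      ((hd4 x - w + 1) % 4 = 0 → P4 x = M4 (a + vec (w - 1)) w) := by
  rw [P4_tlv, hx, near_mid a w, far_mid]
  constructor
  · intro h
    rw [dx_congr (show hd4 x % 4 = (w + 1) % 4 by omega),
      dy_congr (show hd4 x % 4 = (w + 1) % 4 by omega)]
  · intro h
    rw [dx_congr (show hd4 x % 4 = (w - 1) % 4 by omega),
      dy_congr (show hd4 x % 4 = (w - 1) % 4 by omega)]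

/-- The sites of a lateral edge. -/
theorem side_lat {a : ℤ × ℤ} {w : ℤ} (hx : tlv x = sqL a (w - 1)) :
    ((hd4 x - w) % 4 = 0 → ls x = a + vec w ∧ rs x = a + vec w + vec (w - 1)) ∧
      ((hd4 x - w - 2) % 4 = 0 → rs x = a ∧ ls x = a + vec (w - 1)) := by
  have hls : (ls x = if hd4 x % 4 = 0 then ((tlv x).1 + 1, (tlv x).2 + 1) else
      if hd4 x % 4 = 1 then ((tlv x).1, (tlv x).2 + 1) else
      if hd4 x % 4 = 2 then tlv x else ((tlv x).1 + 1, (tlv x).2)) ∧
    (rs x = if hd4 x % 4 = 0 then ((tlv x).1 + 1, (tlv x).2) else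
      if hd4 x % 4 = 1 then ((tlv x).1 + 1, (tlv x).2 + 1) else
      if hd4 x % 4 = 2 then ((tlv x).1, (tlv x).2 + 1) else tlv x) := by
    rcases x with ⟨a, b⟩ | ⟨a, b⟩ <;> by_cases h : Even (a + b) <;>
      simp [ls, rs, tlv, hd4, h]
  rw [hls.1, hls.2, hx]
  unfold sqL vec
  rcases head_cases w with ⟨a1, b, c⟩ | ⟨a1, b, c⟩ | ⟨a1, b, c⟩ | ⟨a1, b, c⟩ <;>
    rcases head_cases (w - 1) with ⟨a', b', c'⟩ | ⟨a', b', c'⟩ | ⟨a', b', c'⟩ | ⟨a', b', c'⟩ <;>
    first
    | (exfalso; omega)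
    | (rw [b, c, b', c']
       constructor
       · intro h
         constructor <;>
         · rcases (by omega : hd4 x % 4 = 0 ∨ hd4 x % 4 = 1 ∨ hd4 x % 4 = 2 ∨ hd4 x % 4 = 3) with
             g | g | g | g <;> first
             | (exfalso; omega)
             | (simp only [g]; ext <;> simp <;> (try split_ifs) <;> omega)
       · intro h
         constructor <;>
         · rcases (by omega : hd4 x % 4 = 0 ∨ hd4 x % 4 = 1 ∨ hd4 x % 4 = 2 ∨ hd4 x % 4 = 3) with
             g | g | g | g <;> first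
             | (exfalso; omega)
             | (simp only [g]; ext <;> simp <;> (try split_ifs) <;> omega))

section rows

variable {D : Set (ℤ × ℤ)} {n N : ℕ} {P : ℕ → ℤ × ℤ} {u : ℕ → ℤ} {s e : ℕ → ℕ}

/-- The sites at a square outside of a step. -/
theorem sqL_far_corner (a : ℤ × ℤ) (w : ℤ) {b : ℤ × ℤ} {t : ℤ}
    (h : sqL a (w - 1) = sqL b (t - 1) + vec (t - 1)) :
    b + vec (t - 1) = a ∨ b + vec (t - 1) = a + vec w ∨ b + vec (t - 1) = a + vec (w - 1) ∨
      b + vec (t - 1) = a + vec w + vec (w - 1) := by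
  unfold sqL vec at h
  unfold vec
  simp only [Prod.mk_add_mk, Prod.mk.injEq] at h
  rcases head_cases w with ⟨a1, b1, c1⟩ | ⟨a1, b1, c1⟩ | ⟨a1, b1, c1⟩ | ⟨a1, b1, c1⟩ <;>
    rcases head_cases (w - 1) with ⟨a', b', c'⟩ | ⟨a', b', c'⟩ | ⟨a', b', c'⟩ | ⟨a', b', c'⟩ <;>
    first
    | (exfalso; omega)
    | (rcases head_cases (t - 1) with ⟨a2, b2, c2⟩ | ⟨a2, b2, c2⟩ | ⟨a2, b2, c2⟩ | ⟨a2, b2, c2⟩ <;>
        rw [a', a2, b2, c2] at h <;>
        rw [b1, c1, b', c', b2, c2] <;>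
        simp only [Prod.ext_iff, Prod.fst_add, Prod.snd_add] <;>
        norm_num at h <;> omega)

/-- The square beyond the far side of a row is in no row. -/
theorem far_out (hR : Rws D n P u N s e) {a k : ℕ} (ha : a < N) (hk1 : s a ≤ k) (hk2 : k < e a) :
    sqL (P k) (u (s a) - 1) + vec (u (s a) - 1) ∉ rws P u N s e := by
  rintro ⟨b, hb, l, hl1, hl2, hl⟩
  have b1 := hR.h1 b hb
  have a1 := hR.h1 a ha
  have a3 := hR.h3 a ha
  have b3 := hR.h3 b hb
  set w := u (s a) with hw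
  have hul : u l = u (s b) := hR.str b hb l (by omega) (by omega)
  have hPl : P (l + 1) = P l + vec (u (s b)) := by rw [hR.bd.step, hul]
  rw [hul] at hl
  have h0 : ∀ m, P m ≠ P k + vec (w - 1) := fun m => hR.free a ha k hk1 (by omega) m
  rcases sqL_far_corner _ _ hl.symm with h1 | h1 | h1 | h1
  · exact h0 l h1.symm
  · rw [← hPl] at h1
    exact h0 _ h1.symm
  · rcases lt_trichotomy a b with hab | rfl | hab
    · exact hR.free2 b hb a hab l k hl1 (by omega) hk1 (by omega) h1.symm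
    · have h2 : P k = P l := add_right_cancel h1
      have h3 : k = l := by
        rcases lt_trichotomy k l with h4 | h4 | h4
        · exact absurd h2 (hR.bd.inj k l h4 (by omega))
        · exact h4
        · exact absurd h2.symm (hR.bd.inj l k h4 (by omega))
      rw [h3] at hl
      have h5 : vec (u (s a) - 1) = 0 := by
        have := hl
        rwa [eq_comm, left_eq_add] at this
      unfold vec at h5
      rw [Prod.mk_eq_zero] at h5
      rcases head_cases (u (s a) - 1) with ⟨a', b', c'⟩ | ⟨a', b', c'⟩ | ⟨a', b', c'⟩ | ⟨a', b', c'⟩ <;>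
        omega
    · exact hR.free2 a ha b hab k l hk1 (by omega) hl1 (by omega) h1
  · rw [← hPl] at h1
    rcases lt_trichotomy a b with hab | rfl | hab
    · exact hR.free2 b hb a hab (l + 1) k (by omega) (by omega) hk1 (by omega) h1.symm
    · have h2 : P k = P (l + 1) := add_right_cancel h1
      have h3 : k = l + 1 := by
        rcases lt_trichotomy k (l + 1) with h4 | h4 | h4
        · exact absurd h2 (hR.bd.inj k (l + 1) h4 (by omega))
        · exact h4
        · exact absurd h2.symm (hR.bd.inj (l + 1) k h4 (by omega))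
      rw [h3, hPl, sqL_vec, add_assoc] at hl
      have h5 : vec (u (s a)) + vec (u (s a) - 1) = 0 := by
        have := hl
        rwa [eq_comm, left_eq_add] at this
      unfold vec at h5
      rw [Prod.mk_add_mk, Prod.mk_eq_zero] at h5
      rcases head_cases (u (s a)) with ⟨a1, b1, c1⟩ | ⟨a1, b1, c1⟩ | ⟨a1, b1, c1⟩ | ⟨a1, b1, c1⟩ <;>
        rcases head_cases (u (s a) - 1) with ⟨a', b', c'⟩ | ⟨a', b', c'⟩ | ⟨a', b', c'⟩ |
          ⟨a', b', c'⟩ <;> omega
    · exact hR.free2 a ha b hab k (l + 1) hk1 (by omega) (by omega) (by omega) h1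

end rows

end Vale.Agent.P167.H871.Q
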