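import Vale.Agent.P167.H680.S.ADefs
import Vale.Agent.P167.H592.U.ArcA

/-!
# P167, general `q`, L2S: the arcs of a family of rows

`Fam.arcH`: an inner strand of the rows which does not use the end faces crosses one lateral side.
-/

namespace Vale.Agent.P167.H871.Q

open Finset
open Vale.Agent.P167.FK
open Vale.Agent.P167.Top
open Vale.Agent.P167.H871
open Vale.Agent.P167.H199 (strand ret Returns ret_le)
open Vale.Agent.P167.BR (be)
open Vale.Agent.P167.XDL (bS mem_bS P4_be)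
open Vale.Agent.P167.H680.T (uI)
open Vale.Agent.P167.H680.S (IsN IsF ArcS ArcH)
open Vale.Agent.P167.H825.Q (Row)

variable {ω : Cfg} {x : Ed}

section rows

variable {D : Set (ℤ × ℤ)} {n N : ℕ} {P : ℕ → ℤ × ℤ} {u : ℕ → ℤ} {s e : ℕ → ℕ}

/-- The next square along a row. -/
theorem row_up (hR : Rws D n P u N s e) {a k : ℕ} (ha : a < N) (hk1 : s a ≤ k) (hk2 : k < e a)
    {v : ℤ × ℤ} (hv : v = sqL (P k) (u (s a) - 1) + vec (u (s a))) :
    v = sqL (P (k + 1)) (u (s a) - 1) ∧ (v ∉ ends P u N s e → k + 1 < e a) := by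
  have a1 := hR.h1 a ha
  have hstr := hR.str a ha
  have e1 : v = sqL (P (k + 1)) (u (s a) - 1) := by
    rw [hR.bd.step, hstr k (by omega) (by omega), sqL_vec, hv]
  refine ⟨e1, fun h => ?_⟩
  by_contra h'
  have h2 : k + 1 = e a := by omega
  refine h ⟨a, ha, Or.inr ?_⟩
  rw [e1, h2, hstr (e a) (by omega) le_rfl]

/-- The previous square along a row. -/
theorem row_down (hR : Rws D n P u N s e) {a k : ℕ} (ha : a < N) (hk1 : s a ≤ k) (hk2 : k < e a)
    {v : ℤ × ℤ} (hv : v = sqL (P k) (u (s a) - 1) + vec (u (s a) - 2)) :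
    v = sqL (P (k - 1)) (u (s a) - 1) ∧ (v ∉ ends P u N s e → s a ≤ k - 1) := by
  have a1 := hR.h1 a ha
  have hstr := hR.str a ha
  have e1 : v = sqL (P (k - 1)) (u (s a) - 1) := by
    have h4 := hR.bd.step (k - 1)
    rw [show k - 1 + 1 = k by omega, hstr (k - 1) (by omega) (by omega)] at h4
    have h5 : vec (u (s a)) + vec (u (s a) - 2) = 0 := by
      have := vec_back (u (s a) - 2)
      rw [sub_add_cancel] at this
      rw [this]; simp
    rw [hv, h4, sqL_vec, add_assoc, h5, add_zero]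
  refine ⟨e1, fun h => ?_⟩
  by_contra h'
  have h2 : k = s a := by omega
  refine h ⟨a, ha, Or.inl ?_⟩
  rw [e1, h2, hstr (s a - 1) (by omega) (by omega)]

/-- The near side of a row. -/
theorem row_near (hR : Rws D n P u N s e) {a k : ℕ} (ha : a < N) (hk1 : s a ≤ k) (hk2 : k < e a)
    {v : ℤ × ℤ} (hv : v = sqL (P k) (u (s a) - 1) + vec (u (s a) + 1)) : v ∈ D := by
  have a1 := hR.h1 a ha
  have hstr := hR.str a ha
  have e1 : v = sqL (P k) (u (s a)) := by
    have h4 : vec (u (s a) + 1) + vec (u (s a) - 1) = 0 := by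
      have := vec_back (u (s a) - 1)
      rw [show u (s a) - 1 + 2 = u (s a) + 1 by ring] at this
      rw [this]; simp
    have h6 := sqL_next' (P k) (u (s a) - 1)
    rw [sub_add_cancel] at h6
    rw [hv, ← h6, sqL_vec, add_assoc, add_comm (vec (u (s a) - 1)), h4, add_zero]
  rw [e1, ← hstr k (by omega) (by omega)]
  exact hR.bd.left k

/-- The squares of the rows are not in the domain. -/
theorem row_notD (hR : Rws D n P u N s e) {v : ℤ × ℤ} (hv : v ∈ rws P u N s e) : v ∉ D := by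
  obtain ⟨a, ha, k, hk1, hk2, rfl⟩ := hv
  exact hR.bd.right k

/-- Data of an arc, window numbering. -/
structure ArcW (P : ℕ → ℤ × ℤ) (w : ℤ) (K : Finset (ℤ × ℤ)) (ω : Cfg) (x : Ed) (k l : ℕ) :
    Prop where
  ret : ret (nx ω) (bS K) x = 2
  hd : hdv x = sqL (P k) (w - 1)
  hd1 : hdv (nx ω x) = sqL (P l) (w - 1)
  cs : (((P4 x = M4 (P k) w ∧ ω (hdv x) = false) ∨
        (P4 x = M4 (P k + vec (w - 1)) w ∧ ω (hdv x) = true)) ∧ l = k + 1 ∧
      ls (nx ω x) = P l ∧ rs (nx ω x) = P l + vec (w - 1) ∧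
      (ω (hdv (nx ω x)) = false → P4 (nx ω (nx ω x)) = M4 (P l) w) ∧
      (ω (hdv (nx ω x)) = true → P4 (nx ω (nx ω x)) = M4 (P l + vec (w - 1)) w)) ∨
    (((P4 x = M4 (P k) w ∧ ω (hdv x) = true) ∨
        (P4 x = M4 (P k + vec (w - 1)) w ∧ ω (hdv x) = false)) ∧ k = l + 1 ∧
      rs (nx ω x) = P k ∧ ls (nx ω x) = P k + vec (w - 1) ∧
      (ω (hdv (nx ω x)) = true → P4 (nx ω (nx ω x)) = M4 (P l) w) ∧
      (ω (hdv (nx ω x)) = false → P4 (nx ω (nx ω x)) = M4 (P l + vec (w - 1)) w))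

/-- An edge which leaves a square of a row across the row leaves the rows. -/
theorem out_bS (hR : Rws D n P u N s e) {K : Finset (ℤ × ℤ)} (hK : (K : Set (ℤ × ℤ)) = rws P u N s e)
    {a k : ℕ} (ha : a < N) (hk1 : s a ≤ k) (hk2 : k < e a) {y : Ed}
    (hy : tlv y = sqL (P k) (u (s a) - 1))
    (h : (hd4 y - u (s a) - 1) % 4 = 0 ∨ (hd4 y - u (s a) + 1) % 4 = 0) : y ∈ bS K := by
  have hK' : ∀ v, v ∈ rws P u N s e ↔ v ∈ K := fun v => by rw [← hK, mem_coe]
  rw [mem_bS]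
  right
  have a1 := hR.h1 a ha
  have hin : tlv y ∈ K := by
    rw [← hK', hy, ← hR.str a ha k (by omega) (by omega)]
    exact ⟨a, ha, k, hk1, hk2, by rw [hR.str a ha k (by omega) (by omega)]⟩
  refine ⟨?_, hin⟩
  rw [← hK']
  rcases h with h | h
  · intro h'
    refine row_notD hR h' (row_near hR ha hk1 hk2 ?_)
    rw [hdv_tlv, hy, vec_congr (show hd4 y % 4 = (u (s a) + 1) % 4 by omega)]
  · rw [hdv_tlv, hy, vec_congr (show hd4 y % 4 = (u (s a) - 1) % 4 by omega)]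
    exact far_out hR ha hk1 hk2

/-- **The arcs**, window numbering. -/
theorem arc_win (hR : Rws D n P u N s e) {K : Finset (ℤ × ℤ)} (hK : (K : Set (ℤ × ℤ)) = rws P u N s e)
    (h1 : hdv x ∈ K) (h2 : tlv x ∉ K) (h3 : tlv x ∉ ends P u N s e)
    (h4 : hdv (nx ω x) ∉ ends P u N s e) : ∃ a < N, ∃ k l, s a ≤ k ∧ k < e a ∧ s a ≤ l ∧ l < e a ∧
      ArcW P (u (s a)) K ω x k l := by
  have hK' : ∀ v, v ∈ rws P u N s e ↔ v ∈ K := fun v => by rw [← hK, mem_coe]
  obtain ⟨a, ha, k, hk1, hk2, hvk⟩ := (hK' _).2 h1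
  have a1 := hR.h1 a ha
  have hstr := hR.str a ha
  set w := u (s a) with hw
  have huk : u k = w := hstr k (by omega) (by omega)
  rw [huk] at hvk
  have ht : tlv x = hdv x + vec (hd4 x + 2) := by
    rw [hdv_tlv x, vec_back, add_assoc, add_neg_cancel, add_zero]
  have ht1 := hd4_nx ω x
  have ht2 := hd4_nx ω (nx ω x)
  unfold trn at ht1 ht2
  have hy : tlv (nx ω x) = sqL (P k) (w - 1) := by rw [tlv_nx, hvk]
  -- the heading of `x`
  have hh : (hd4 x - w + 1) % 4 = 0 ∨ (hd4 x - w - 1) % 4 = 0 := by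
    by_contra hc
    rcases (by omega : (hd4 x + 2) % 4 = w % 4 ∨ (hd4 x + 2) % 4 = (w - 2) % 4) with g | g
    · obtain ⟨e1, e2⟩ := row_up hR ha hk1 hk2 (v := tlv x) (by rw [ht, hvk, vec_congr g])
      refine h2 ((hK' _).1 ⟨a, ha, k + 1, by omega, e2 h3, ?_⟩)
      rw [e1, hstr (k + 1) (by omega) (by omega)]
    · obtain ⟨e1, e2⟩ := row_down hR ha hk1 hk2 (v := tlv x) (by rw [ht, hvk, vec_congr g])
      refine h2 ((hK' _).1 ⟨a, ha, k - 1, e2 h3, by omega, ?_⟩)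
      rw [e1, hstr (k - 1) (by omega) (by omega)]
  obtain ⟨s1, s2⟩ := side_in (x := x) hvk
  obtain ⟨l1, l2⟩ := side_lat (x := nx ω x) hy
  have hret : ∀ l, s a ≤ l → l < e a → hdv (nx ω x) = sqL (P l) (w - 1) →
      ((hd4 (nx ω (nx ω x)) - w - 1) % 4 = 0 ∨ (hd4 (nx ω (nx ω x)) - w + 1) % 4 = 0) →
      ret (nx ω) (bS K) x = 2 := by
    intro l hl1 hl2 hl hd
    have hm : (nx ω)^[2] x ∈ bS K := by
      show nx ω (nx ω x) ∈ bS K
      exact out_bS hR hK ha hl1 hl2 (by rw [tlv_nx, hl]) hd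
    have hle : ret (nx ω) (bS K) x ≤ 2 := ret_le (by norm_num) hm
    obtain ⟨r1, r2⟩ := (show Returns (nx ω) (bS K) x from ⟨2, by norm_num, hm⟩).spec
    by_contra hne
    have h5 : ret (nx ω) (bS K) x = 1 := by omega
    rw [h5] at r2
    change nx ω x ∈ bS K at r2
    rw [mem_bS] at r2
    have h6 : hdv (nx ω x) ∈ K := by
      rw [← hK', hl]
      exact ⟨a, ha, l, hl1, hl2, by rw [hstr l (by omega) (by omega)]⟩
    have h7 : tlv (nx ω x) ∈ K := by rw [tlv_nx]; exact h1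
    tauto
  have hdn : hdv (nx ω x) = sqL (P k) (w - 1) + vec (hd4 (nx ω x)) := by rw [hdv_tlv, hy]
  rcases (by
    rcases hh with g | g <;> cases hc : ω (hdv x) <;> simp [hc] at ht1 <;> omega :
    (hd4 (nx ω x) - w) % 4 = 0 ∨ (hd4 (nx ω x) - w - 2) % 4 = 0) with g | g
  · -- up
    obtain ⟨e1, e2⟩ := row_up hR ha hk1 hk2 (v := hdv (nx ω x))
      (by rw [hdn, vec_congr (show hd4 (nx ω x) % 4 = w % 4 by omega)])
    have e3 := e2 h4
    have hup : P (k + 1) = P k + vec w := by rw [hR.bd.step, huk]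
    obtain ⟨o1, o2⟩ := side_out (x := nx ω (nx ω x)) (a := P (k + 1)) (w := w) (by rw [tlv_nx, e1])
    refine ⟨a, ha, k, k + 1, hk1, hk2, by omega, e3, ?_, hvk, e1, Or.inl ⟨?_, rfl, ?_, ?_, ?_, ?_⟩⟩
    · refine hret (k + 1) (by omega) e3 e1 ?_
      cases hc : ω (hdv (nx ω x)) <;> (simp [hc] at ht2; omega)
    · rcases hh with g' | g'
      · left
        refine ⟨s1 g', ?_⟩
        cases hc : ω (hdv x) <;> (simp [hc] at ht1 ⊢; try omega)
      · right
        refine ⟨s2 g', ?_⟩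
        cases hc : ω (hdv x) <;> (simp [hc] at ht1 ⊢; try omega)
    · rw [(l1 g).1, hup]
    · rw [(l1 g).2, hup]
    · intro hc
      rw [hc] at ht2
      exact o1 (by norm_num at ht2; omega)
    · intro hc
      rw [hc] at ht2
      exact o2 (by norm_num at ht2; omega)
  · -- down
    obtain ⟨e1, e2⟩ := row_down hR ha hk1 hk2 (v := hdv (nx ω x))
      (by rw [hdn, vec_congr (show hd4 (nx ω x) % 4 = (w - 2) % 4 by omega)])
    have e3 := e2 h4
    obtain ⟨o1, o2⟩ := side_out (x := nx ω (nx ω x)) (a := P (k - 1)) (w := w) (by rw [tlv_nx, e1])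
    refine ⟨a, ha, k, k - 1, hk1, hk2, e3, by omega, ?_, hvk, e1, Or.inr ⟨?_, by omega, ?_, ?_, ?_, ?_⟩⟩
    · refine hret (k - 1) e3 (by omega) e1 ?_
      cases hc : ω (hdv (nx ω x)) <;> (simp [hc] at ht2; omega)
    · rcases hh with g' | g'
      · left
        refine ⟨s1 g', ?_⟩
        cases hc : ω (hdv x) <;> (simp [hc] at ht1 ⊢; try omega)
      · right
        refine ⟨s2 g', ?_⟩
        cases hc : ω (hdv x) <;> (simp [hc] at ht1 ⊢; try omega)
    · exact (l2 g).1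
    · exact (l2 g).2
    · intro hc
      rw [hc] at ht2
      exact o1 (by norm_num at ht2; omega)
    · intro hc
      rw [hc] at ht2
      exact o2 (by norm_num at ht2; omega)

end rows

variable {ι : Type} [Fintype ι] {n : ℕ} {r : ι → Row} {q : ZMod n → ℤ × ℤ} {D : Finset (ℤ × ℤ)}
  {u : ℕ → ℤ} {c N ka : ℕ} {s e : ℕ → ℕ} {θ β : ℝ}

/-- **[ARC]** The arcs of a family of rows. -/
theorem Fam.arcH (F : Fam θ β r q D u ka c N s e) : ArcH r q u c N s e := by
  intro ω x h1 h2 h3 h4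
  have hn : 2 < n := F.hq.1
  have hn0 : 0 < n := by omega
  have hc := F.hc
  obtain ⟨a, ha, k, l, hk1, hk2, hl1, hl2, A⟩ := arc_win F.hR F.hK h1 h2 h3 h4
  have a1 := F.hR.h1 a ha
  have a3 := F.hR.h3 a ha
  have hstr := F.hR.str a ha
  try simp only at hstr
  set w := u (s a + c) with hw
  have hub : ∀ m : ℕ, P4 (be q (m : ZMod n)) = M4 (q (m : ZMod n)) (u m) := fun m => P4_be F.hq F.hu m
  have key : ∀ m, s a ≤ m → m < e a → (m + c) % n < n ∧ InK n c N s e ((m + c) % n) ∧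
      ((m + c < n ∧ (m + c) % n = m + c ∧ u ((m + c) % n) = w) ∨
        (n ≤ m + c ∧ (m + c) % n = m + c - n ∧ u ((m + c) % n) = w - 4)) := by
    intro m hm1 hm2
    refine ⟨Nat.mod_lt _ hn0, ⟨m, ⟨a, ha, hm1, hm2⟩, rfl⟩, ?_⟩
    have h5 : u (m + c) = w := hstr m (by omega) (by omega)
    rcases Nat.lt_or_ge (m + c) n with h | h
    · left
      rw [Nat.mod_eq_of_lt h]
      exact ⟨h, rfl, h5⟩
    · right
      have h6 : (m + c) % n = m + c - n := by
        rw [Nat.mod_eq_sub_mod h, Nat.mod_eq_of_lt (by omega)]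
      have h7 := F.hu.per (m + c - n)
      rw [show m + c - n + n = m + c by omega, h5] at h7
      refine ⟨h, h6, ?_⟩
      rw [h6]; omega
  obtain ⟨k3, k4, k5⟩ := key k hk1 hk2
  obtain ⟨l3, l4, l5⟩ := key l hl1 hl2
  have hqc : ∀ m : ℕ, q (((m + c) % n : ℕ) : ZMod n) = q ((m + c : ℕ) : ZMod n) := fun m => by
    rw [ZMod.natCast_mod]
  have cg : ∀ m, u ((m + c) % n) = w ∨ u ((m + c) % n) = w - 4 → ∀ b,
      sqL b (u ((m + c) % n) - 1) = sqL b (w - 1) ∧ M4 b (u ((m + c) % n)) = M4 b w ∧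
        vec (u ((m + c) % n) - 1) = vec (w - 1) := by
    intro m hm b
    rcases hm with hm | hm <;> rw [hm]
    · exact ⟨rfl, rfl, rfl⟩
    · exact ⟨sqL_congr (by omega), M4_congr (by omega), vec_congr (by omega)⟩
  have ck := cg k (by omega)
  have cl := cg l (by omega)
  have isN : ∀ m, (∀ b, sqL b (u ((m + c) % n) - 1) = sqL b (w - 1) ∧ M4 b (u ((m + c) % n)) = M4 b w ∧
        vec (u ((m + c) % n) - 1) = vec (w - 1)) → ∀ y : Ed, P4 y = M4 (q ((m + c : ℕ) : ZMod n)) w →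
      IsN q y ((m + c) % n) := by
    intro m hm y hy
    unfold IsN
    apply P4_inj
    rw [hub, hy, hqc, (hm _).2.1]
  have isF : ∀ m, (∀ b, sqL b (u ((m + c) % n) - 1) = sqL b (w - 1) ∧ M4 b (u ((m + c) % n)) = M4 b w ∧
        vec (u ((m + c) % n) - 1) = vec (w - 1)) → ∀ y : Ed,
      P4 y = M4 (q ((m + c : ℕ) : ZMod n) + vec (w - 1)) w → IsF q u y ((m + c) % n) := by
    intro m hm y hy
    unfold IsF
    rw [hy, hqc, (hm _).2.1, (hm (0, 0)).2.2]
  refine ⟨(k + c) % n, (l + c) % n, k3, l3, k4, l4, A.ret, ?_, ?_, ?_⟩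
  · rw [A.hd, hqc, (ck _).1]
  · rw [A.hd1, hqc, (cl _).1]
  · rcases A.cs with ⟨h5, h6, h7, h8, h9, h10⟩ | ⟨h5, h6, h7, h8, h9, h10⟩
    · left
      subst h6
      have hmod : (k + 1 + c) % n = ((k + c) % n + 1) % n := by
        rw [Nat.mod_add_mod]; congr 1; ring
      refine ⟨?_, hmod, ?_, ?_, ?_, fun h => isN _ cl _ (h9 h), fun h => isF _ cl _ (h10 h)⟩
      · rcases h5 with h5 | h5
        · exact Or.inl ⟨isN _ ck _ h5.1, h5.2⟩
        · exact Or.inr ⟨isF _ ck _ h5.1, h5.2⟩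
      · split_ifs with h
        · omega
        · omega
      · rw [h7, hqc]
      · unfold yK
        rw [h8, hqc, (cl (0, 0)).2.2]
    · right
      subst h6
      have hmod : (l + 1 + c) % n = ((l + c) % n + 1) % n := by
        rw [Nat.mod_add_mod]; congr 1; ring
      refine ⟨?_, hmod, ?_, ?_, ?_, fun h => isN _ cl _ (h9 h), fun h => isF _ cl _ (h10 h)⟩
      · rcases h5 with h5 | h5
        · exact Or.inl ⟨isN _ ck _ h5.1, h5.2⟩
        · exact Or.inr ⟨isF _ ck _ h5.1, h5.2⟩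
      · split_ifs with h
        · omega
        · omega
      · rw [h7, hqc]
      · unfold yK
        rw [h8, hqc, (ck (0, 0)).2.2]

end Vale.Agent.P167.H871.Q
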