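import Vale.Agent.P167.H592.U.Near
import Vale.Agent.P167.H592.U.Fam

/-!
# P167, general `q`, L2S: the colours of the steps of the frame
-/

namespace Vale.Agent.P167.Enl

open Finset
open Vale.Agent.P167.FK
open Vale.Agent.P167.Top
open Vale.Agent.P167.E6 (IsPolygon Encloses dir face)
open Vale.Agent.P167.H825 (enl pdir ptau Marks FlowIn)
open Vale.Agent.P167.H825.Q (Row Bc frow)
open Vale.Agent.P167.H680.T (rowC uI frows)
open Vale.Agent.P167.H398.Q (hB Frz bcol)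
open Vale.Agent.P167.H199 (Gap)
open Vale.Agent.P167.H871 (Bd sqL)
open Vale.Agent.P167.H871.Q (Fam endK InK)

variable {l : ℕ} {p : ZMod l → ℤ × ℤ} {n : ℕ} {S₀ : Finset (ℤ × ℤ)} {Q : Marks} {bc : Bc}
  {θ β : ℝ}

variable (hp : IsPolygon p) (hD : Encloses p S₀) (hQ : Q.Ok) {g δ : ℝ} (hg : Gap Q l g)
  (hδ : 0 < δ) (hδg : 4 * δ ≤ g) (hn : 16 ≤ δ * n)

include hp hD hQ hg hδ hδg hn in
/-- **The colours of the steps of the frame.** -/
theorem frame_col (hb : bc.Ok l Q) {ω : Cfg} (hω : Frz (frows θ β p Q n ⌊δ * n⌋₊ bc) ω) :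
    ∀ z < l * n, InK (l * n) (l * n - tB n Q) (l * (Q.m + 1)) (sR p n Q ⌊δ * n⌋₊)
      (eR p n Q ⌊δ * n⌋₊) z → ω (sqL (qN p n (tB n Q) (z : ZMod (l * n))) (uN p n (tB n Q) z - 1)) =
        decide (¬ z < bc.ka l n (tB n Q)) := by
  intro z _ hK
  have hl : 0 < l := by have := hp.1; omega
  obtain ⟨-, -, -, -, b5⟩ := gn_big hQ hg hδg hn hl
  have ht := tB_lt (n := n) hQ b5
  obtain ⟨y, σ, h1, h2, rfl⟩ := (frame_inK hp hQ hg hδ hδg hn).1 hK
  have hd : 16 ≤ ⌊δ * n⌋₊ := Nat.le_floor (by push_cast; linarith)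
  have h3 : eW p n Q ⌊δ * n⌋₊ y.1 y.2 < n := by
    have h1 := (rows_marks (p := p) hQ hg hδ hδg hn).hi y
    omega
  rw [sqL_kOf hp hD ht y.1.2 (by omega)]
  obtain ⟨k1, k2⟩ := frz_step hp hD hQ hg hδ hδg hn hb hω y h1 h2
  by_cases h : kOf l n (tB n Q) y.1 σ < bc.ka l n (tB n Q)
  · rw [k1.2 h]; simp [h]
  · rw [k2.2 h]; simp [h]

end Vale.Agent.P167.Enl
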