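import Vale.Agent.P167.H680.S.FarL
import Vale.Agent.P167.H592.U.Arc
import Vale.Agent.P167.H592.U.FCol
import Vale.Agent.P167.H592.U.Near
import Vale.Agent.P167.H871.Q.LF0F

/-!
# P167, general `q`, L2S (b): the loops near one mark

`frame_ctx`: the context of a loop off the holes of the frame. `frame_b`: the factor of a loop off the
holes which stays in the box of a mark is `1`.
-/

namespace Vale.Agent.P167.Enl

open Finset
open Vale.Agent.P167.FK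
open Vale.Agent.P167.Top
open Vale.Agent.P167.E6 (IsPolygon Encloses dir face)
open Vale.Agent.P167.H825 (enl pdir ptau Marks FlowIn)
open Vale.Agent.P167.H825.Q (Row Bc frow)
open Vale.Agent.P167.H680.T (rowC uI frows)
open Vale.Agent.P167.H680.S (Ctx NoMix Wrap sq sq_mem idx_of Nr)
open Vale.Agent.P167.H680.S.Ctx (Xs mem_Xs Wr mem_Wr)
open Vale.Agent.P167.H398.Q (hB Frz bcol)
open Vale.Agent.P167.H199 (Gap Returns ret strand)
open Vale.Agent.P167.H662 (hsite)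
open Vale.Agent.P167.H871 (Bd sqL)
open Vale.Agent.P167.H871.Q (Fam endK InK HoleW Wn frame_hole frame_end low_pos)
open Vale.Agent.P167.XDL (bS mem_bS)
open Vale.Agent.P167.QX (VisL wS fLp)
open Vale.Agent.P167.H685 (LE mem_LE)

variable {l : ℕ} {p : ZMod l → ℤ × ℤ} {n : ℕ} {S₀ : Finset (ℤ × ℤ)} {Q : Marks} {bc : Bc}
  {θ β : ℝ}

/-- The steps at the base point are far from the marks. -/
theorem base_steps (hp : IsPolygon p) (hQ : Q.Ok) {g : ℝ} (hg : Gap Q l g) {m : ℤ}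
    (hm : (2 * m : ℝ) + 4 < g * n) {x : Fin l × Fin (Q.m + 1)} {σ : ℕ}
    (hσ : σ < n) (hs : σ ≤ tB n Q) (hs' : tB n Q ≤ σ + 1)
    (h : nm (vp p n 0 σ - hsite p Q n x) ≤ m) : False := by
  have hl : 0 < l := by have := hp.1; omega
  have hw := window hp hQ hg (by linarith) (x := x) (i := 0) hl hσ h
  have hm0 : 0 ≤ m := (nm_nonneg _).trans h
  obtain ⟨⟨h1, h2⟩, h3⟩ := base_far hQ hg (m := m + 1) (by omega) (by push_cast; linarith) x
  rcases hw with ⟨h4, h5⟩ | ⟨-, -, h5⟩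
  · have h6 := h3 h4.symm
    change |(σ : ℤ) - (pA n Q x : ℕ)| ≤ m at h5
    rw [lt_abs] at h6
    rw [abs_le] at h5
    omega
  · omega

section frame

variable (hp : IsPolygon p) (hD : Encloses p S₀) (hQ : Q.Ok) {g δ : ℝ} (hg : Gap Q l g)
  (hδ : 0 < δ) (hδg : 4 * δ ≤ g) (hn : 16 ≤ δ * n)

include hp hD hQ hg hδ hδg hn in
/-- **The context of a loop off the holes of the frame.** -/
theorem frame_ctx (hb : bc.Ok l Q) {R : ℤ} (hR : (⌊δ * n⌋₊ : ℤ) + 4 ≤ R) {ω : Cfg} (hg' : Good ω)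
    (hω : Frz (frows θ β p Q n ⌊δ * n⌋₊ bc) ω) {ℓ : Finset Ed} (hl : IsLoop ω ℓ)
    (hv : ¬ VisL (hB p Q n R : Set (ℤ × ℤ)) ℓ) :
    Ctx (frows θ β p Q n ⌊δ * n⌋₊ bc) (qN p n (tB n Q)) (enl S₀ n) (uN p n (tB n Q))
      (bc.ka l n (tB n Q)) (l * n - tB n Q) (l * (Q.m + 1)) (sR p n Q ⌊δ * n⌋₊)
      (eR p n Q ⌊δ * n⌋₊) (hB p Q n R : Set (ℤ × ℤ)) ω ℓ where
  hg := hg'
  hB1 _ hv := frame_end hp hD hQ hg hδ hδg hn hR hv
  hB2 _ h1 h2 := frame_hole hp hD hQ hg hδ hδg hn hR h1 h2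
  hcol z hz := frame_col hp hD hQ hg hδ hδg hn hb hω z
    (H680.S.InK_lt (frame_fam (θ := θ) (β := β) hp hD hQ hg hδ hδg hn hb) hz) hz
  hA := (frame_fam (θ := θ) (β := β) hp hD hQ hg hδ hδg hn hb).arcH
  hl := hl
  hv := hv

include hp hD hQ hg hδ hδg hn in
/-- The colour of the squares of the frame near a mark. -/
theorem box_clr (hb : bc.Ok l Q) (hbg : BGap l Q g bc) {R : ℤ} (hR : (2 * R : ℝ) + 4 < g * n)
    {ω : Cfg} (hω : Frz (frows θ β p Q n ⌊δ * n⌋₊ bc) ω) (x : Fin l × Fin (Q.m + 1)) {v : ℤ × ℤ}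
    (hv : v ∈ uI (frows θ β p Q n ⌊δ * n⌋₊ bc)) (h : v ∈ Bq (hsite p Q n x) R) :
    ω v = bcol p Q bc n x := by
  have hd : 16 ≤ ⌊δ * n⌋₊ := Nat.le_floor (by push_cast; linarith)
  rw [uI_frows] at hv
  obtain ⟨y, σ, h1, h2, rfl⟩ := mem_frmQ.1 hv
  have h3 := lt_n hQ (by omega : 1 ≤ ⌊δ * n⌋₊) (Nat.lt_succ_iff.1 y.2.isLt) h1 h2
  obtain ⟨k1, k2⟩ := frz_step hp hD hQ hg hδ hδg hn hb hω y h1 h2
  have h4 := (mark_side hp hQ hg hbg hR x y.1.2 h3 h).2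
  rcases hc : bcol p Q bc n x with _ | _
  · exact k1.2 (h4.2 hc)
  · refine k2.2 fun h5 => ?_
    rw [h4.1 h5] at hc
    cases hc

/-- A step of the base numbering. -/
theorem idx_base {t : ℕ} (ht : t < n) (ht0 : 0 < t) {i σ : ℕ} (hi : i < l) (hσ : σ < n)
    (h : kOf l n t i σ = 0 ∨ kOf l n t i σ + 1 = l * n) : i = 0 ∧ σ ≤ t ∧ t ≤ σ + 1 := by
  have h1 : (i + 1) * n ≤ l * n := Nat.mul_le_mul_right n hi
  rw [add_mul, one_mul] at h1
  have hi0 : i * n < n → i = 0 := fun h2 => by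
    by_contra hne
    have := Nat.mul_le_mul_right n (Nat.one_le_iff_ne_zero.2 hne)
    omega
  unfold kOf at h
  split_ifs at h with h3
  · rcases h with h | h
    · have h5 : i = 0 := hi0 (by omega)
      subst h5
      omega
    · exfalso
      omega
  · have h5 : i = 0 := hi0 (by omega)
    subst h5
    omega

include hp hD hQ hg hδ hδg hn in
/-- **(b)** The factor of a loop off the holes near one mark. -/
theorem frame_b (hb : bc.Ok l Q) (hbg : BGap l Q g bc) (hθ : 0 < θ) (hθ' : θ ≤ Real.pi / 3)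
    {R : ℤ} (hR : (⌊δ * n⌋₊ : ℤ) + 4 ≤ R) {ω : Cfg} (hg' : Good ω)
    (hω : Frz (frows θ β p Q n ⌊δ * n⌋₊ bc) ω) {ℓ : Finset Ed}
    (hℓ : ℓ ∈ LE ω (bS (uI (frows θ β p Q n ⌊δ * n⌋₊ bc))))
    (hv : ¬ VisL (hB p Q n R : Set (ℤ × ℤ)) ℓ) {R' : ℤ} (hR' : (2 * R' : ℝ) + 8 < g * n)
    (x : Fin l × Fin (Q.m + 1)) (hx : ∀ v ∈ vs ℓ, v ∈ Bq (hsite p Q n x) R') :
    fLp θ (uI (frows θ β p Q n ⌊δ * n⌋₊ bc)) (rowC θ (frows θ β p Q n ⌊δ * n⌋₊ bc) 0).ph ω ℓ = 1 := by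
  classical
  have hpi := Real.pi_pos
  obtain ⟨hl, y0, hy0, hy0S⟩ : IsLoop ω ℓ ∧ ∃ y ∈ ℓ, y ∈ bS (uI (frows θ β p Q n ⌊δ * n⌋₊ bc)) := by
    rw [mem_LE] at hℓ
    obtain ⟨h1, y, h2, h3⟩ := hℓ
    first
      | exact ⟨h1, y, h2, h3⟩
      | exact ⟨h1, y, h3, h2⟩
  have hl0 : 0 < l := by have := hp.1; omega
  have F := frame_fam (θ := θ) (β := β) (bc := bc) hp hD hQ hg hδ hδg hn hb
  have C := frame_ctx (θ := θ) (β := β) hp hD hQ hg hδ hδg hn hb hR hg' hω hl hv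
  have hs : 0 < Real.sin θ := Real.sin_pos_of_pos_of_lt_pi hθ (by linarith)
  have hc : 0 < Real.cos θ := Real.cos_pos_of_mem_Ioo ⟨by linarith, by linarith⟩
  have hbx : ∀ z ∈ ℓ, hdv z ∈ Bq (hsite p Q n x) R' ∧ tlv z ∈ Bq (hsite p Q n x) R' := by
    intro z hz
    obtain ⟨y, hy, rfl⟩ := C.pre hz
    refine ⟨hx _ (mem_image_of_mem _ hz), ?_⟩
    rw [tlv_nx]
    exact hx _ (mem_image_of_mem _ hy)
  have hmix : NoMix (uI (frows θ β p Q n ⌊δ * n⌋₊ bc)) ω ℓ := fun z hz h1 h2 => by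
    rw [box_clr hp hD hQ hg hδ hδg hn hb hbg (by linarith) hω x h1 (hbx z hz).1,
      box_clr hp hD hQ hg hδ hδg hn hb hbg (by linarith) hω x h2 (hbx z hz).2]
  obtain ⟨-, -, -, b4, b5⟩ := gn_big hQ hg hδg hn hl0
  have ht := tB_lt (n := n) hQ b5
  have hd : 16 ≤ ⌊δ * n⌋₊ := Nat.le_floor (by push_cast; linarith)
  have ht0 : 0 < tB n Q := by
    have h10 : 4 * (δ * n) ≤ g * n := by
      rw [← mul_assoc]
      exact mul_le_mul_of_nonneg_right hδg (Nat.cast_nonneg n)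
    have h1 := (base_far (n := n) hQ hg (m := 0) le_rfl (by push_cast; linarith) x).1.1
    exact_mod_cast h1
  -- the steps at the base point are not in the box
  have hbase : ∀ i, InK (l * n) (l * n - tB n Q) (l * (Q.m + 1)) (sR p n Q ⌊δ * n⌋₊)
      (eR p n Q ⌊δ * n⌋₊) i → (i = 0 ∨ i + 1 = l * n) →
      sq (qN p n (tB n Q)) (uN p n (tB n Q)) i ∉ Bq (hsite p Q n x) R' := by
    intro i hi h0 hin
    obtain ⟨y, σ, h1, h2, rfl⟩ := (frame_inK hp hQ hg hδ hδg hn).1 hi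
    have h3 := lt_n hQ (by omega : 1 ≤ ⌊δ * n⌋₊) (Nat.lt_succ_iff.1 y.2.isLt) h1 h2
    have h4 : sq (qN p n (tB n Q)) (uN p n (tB n Q)) (kOf l n (tB n Q) y.1 σ) = op p n y.1 σ :=
      sqL_kOf hp hD ht y.1.2 h3
    rw [h4] at hin
    obtain ⟨e1, e2, e3⟩ := idx_base ht ht0 y.1.2 h3 h0
    rw [e1] at hin
    have h5 : nm (vp p n 0 σ - hsite p Q n x) ≤ R' + 1 := by
      have a1 := op_near (p := p) (n := n) 0 σ
      have a2 := nm_tri (vp p n 0 σ) (op p n 0 σ) (hsite p Q n x)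
      have a3 := mem_Bq' hin
      rw [nm_sub_comm (vp p n 0 σ) (op p n 0 σ)] at a2
      omega
    exact base_steps hp hQ hg (m := R' + 1) (by push_cast; linarith) h3 e2 e3 h5
  have hWr : (Wr (qN p n (tB n Q)) (uN p n (tB n Q)) (l * n - tB n Q) (l * (Q.m + 1))
      (sR p n Q ⌊δ * n⌋₊) (eR p n Q ⌊δ * n⌋₊) (uI (frows θ β p Q n ⌊δ * n⌋₊ bc)) ω ℓ).card = 0 := by
    rw [card_eq_zero, eq_empty_iff_forall_notMem]
    intro b hbW
    obtain ⟨h1, h2, h3, h4⟩ := mem_Wr.1 hbW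
    have h5 : tlv b ∉ uI (frows θ β p Q n ⌊δ * n⌋₊ bc) := by
      rw [mem_bS] at h1
      tauto
    obtain ⟨i, j, A⟩ := C.entry h3 h2 h5
    have i1 := idx_of F A.ri A.hd
    have i2 := idx_of F A.rj A.hd1
    unfold Wrap at h4
    rw [i1, i2] at h4
    have hbi := (hbx b h3).1
    rw [A.hd] at hbi
    exact hbase i A.ri (by omega) hbi
  -- the factor is not zero
  have hpos : 0 < fLp θ (uI (frows θ β p Q n ⌊δ * n⌋₊ bc))
      (rowC θ (frows θ β p Q n ⌊δ * n⌋₊ bc) 0).ph ω ℓ := by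
    unfold fLp
    refine div_pos (prod_pos fun e he => ?_) (by linarith)
    obtain ⟨he1, he2, he3⟩ := mem_filter.1 he
    have hRR : ∃ R₁ : ℕ, ⌊δ * n⌋₊ + 3 ≤ R₁ ∧ (2 * R₁ : ℝ) + 8 < g * n ∧ R' ≤ R₁ := by
      refine ⟨max (⌊δ * n⌋₊ + 3) R'.toNat, le_max_left _ _, ?_, ?_⟩
      · rcases le_total (⌊δ * n⌋₊ + 3) R'.toNat with h | h
        · rw [max_eq_right h]
          have h6 : 0 ≤ R' := by omega
          have h7 : ((R'.toNat : ℕ) : ℤ) = R' := Int.toNat_of_nonneg h6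
          have h8 : ((R'.toNat : ℕ) : ℝ) = (R' : ℝ) := by exact_mod_cast h7
          rw [h8]
          exact hR'
        · rw [max_eq_left h]
          have h9 : (⌊δ * n⌋₊ : ℝ) ≤ δ * n := Nat.floor_le (by linarith)
          have h10 : 4 * (δ * n) ≤ g * n := by
            rw [← mul_assoc]
            exact mul_le_mul_of_nonneg_right hδg (Nat.cast_nonneg n)
          push_cast
          linarith
      · have := le_max_right (⌊δ * n⌋₊ + 3) R'.toNat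
        have := Int.self_le_toNat R'
        push_cast
        omega
    obtain ⟨R₁, r1, r2, r3⟩ := hRR
    obtain ⟨w1, w2⟩ := frame_holeW (θ := θ) (β := β) (bc := bc) hp hD hQ hg hδ hδg hn hb hbg r1 r2 x
    have hret : Returns (nx ω) (bS (uI (frows θ β p Q n ⌊δ * n⌋₊ bc))) e := by
      have h1 : tlv e ∈ uI (frows θ β p Q n ⌊δ * n⌋₊ bc) := by
        rw [mem_bS] at he1
        tauto
      exact (C.exit F he3 h1 he2).1
    have hBq : ∀ v, v ∈ Bq (hsite p Q n x) R' → v ∈ Bq (hsite p Q n x) R₁ := by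
      intro v hv
      unfold Bq at hv ⊢
      rw [mem_product, mem_Ico, mem_Ico] at hv ⊢
      omega
    have h1 := w1.low (ω := ω) (hτ_or l n Q bc x) hθ hθ' he1 hret
      (fun k hk => w2 _ (hBq _ (hbx _ (H199.loop_iter hl he3 k)).1)
        (QX.out_stays he2 hk))
    have h2 := low_pos hθ hθ'
    unfold wS
    refine div_pos ?_ hs
    linarith
  -- the end
  by_cases hN : Nr (enl S₀ n) y0
  · have h1 := (C.fLp_near F hmix (fun b hb hbl => (C.type_const F hmix hy0S hy0 hb hbl).2 hN) hs.ne'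
      hc.ne' ⟨y0, hy0S, hy0⟩).2
    rw [h1, if_pos hWr]
  · obtain ⟨-, h1 | ⟨-, h1⟩ | ⟨h1, -⟩⟩ := C.fLp_far F hmix
      (fun b hb hbl h => hN ((C.type_const F hmix hy0S hy0 hb hbl).1 h)) hs.ne' hc.ne'
      ⟨y0, hy0S, hy0⟩
    · exact absurd h1 hpos.ne'
    · exact h1
    · omega

end frame

end Vale.Agent.P167.Enl
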